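import Mathlib

namespace Vale.Agent.Lib.P042

open Finset

/-- The set of naturals below `m ^ n` whose base-`m` digit at position `i` lies in `D i`,
built one digit at a time. -/
def digSet (m : ℕ) (D : ℕ → Finset ℕ) : ℕ → Finset ℕ
  | 0 => {0}
  | (n + 1) => ((digSet m D n) ×ˢ (D n)).image (fun p => p.1 + m ^ n * p.2)

theorem digSet_lt (m : ℕ) (D : ℕ → Finset ℕ) (hD : ∀ i, D i ⊆ range m) :
    ∀ n x, x ∈ digSet m D n → x < m ^ n := by
  intro n
  induction n with
  | zero =>
    intro x hx
    simp [digSet] at hx
    simp [hx]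
  | succ n ih =>
    intro x hx
    simp only [digSet, mem_image, mem_product, Prod.exists] at hx
    obtain ⟨r, q, ⟨hr, hq⟩, rfl⟩ := hx
    have h1 := ih r hr
    have h2 : q < m := by simpa using hD n hq
    calc r + m ^ n * q < m ^ n + m ^ n * q := by omega
      _ = m ^ n * (q + 1) := by ring
      _ ≤ m ^ n * m := Nat.mul_le_mul_left _ h2
      _ = m ^ (n + 1) := by ring

theorem digSet_digit (m : ℕ) (hm : 0 < m) (D : ℕ → Finset ℕ) (hD : ∀ i, D i ⊆ range m) :
    ∀ n x, x ∈ digSet m D n → ∀ i, i < n → x / m ^ i % m ∈ D i := by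
  intro n
  induction n with
  | zero => intro x _ i hi; omega
  | succ n ih =>
    intro x hx i hi
    simp only [digSet, mem_image, mem_product, Prod.exists] at hx
    obtain ⟨r, q, ⟨hr, hq⟩, rfl⟩ := hx
    have h1 := digSet_lt m D hD n r hr
    have h2 : q < m := by simpa using hD n hq
    rcases Nat.lt_succ_iff_lt_or_eq.mp hi with hlt | heq
    · have hsplit : m ^ n = m ^ i * (m * m ^ (n - i - 1)) := by
        rw [← pow_succ', ← pow_add]
        congr 1
        omega
      have : (r + m ^ n * q) / m ^ i = r / m ^ i + m * (m ^ (n - i - 1) * q) := by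
        rw [hsplit, mul_assoc, Nat.add_mul_div_left _ _ (pow_pos hm i)]
        ring
      rw [this, Nat.add_mul_mod_self_left]
      exact ih r hr i hlt
    · subst heq
      have : (r + m ^ i * q) / m ^ i = q := by
        rw [Nat.add_mul_div_left _ _ (pow_pos hm i), Nat.div_eq_of_lt h1]
        simp
      rw [this, Nat.mod_eq_of_lt h2]
      exact hq

theorem digSet_card (m : ℕ) (D : ℕ → Finset ℕ) (hD : ∀ i, D i ⊆ range m) :
    ∀ n, (digSet m D n).card = ∏ i ∈ range n, (D i).card := by
  intro n
  induction n with
  | zero => simp [digSet]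
  | succ n ih =>
    rw [prod_range_succ, ← ih, ← card_product]
    simp only [digSet]
    apply card_image_of_injOn
    intro p hp p' hp' heq
    simp only [coe_product, Set.mem_prod, mem_coe] at hp hp'
    have h1 := digSet_lt m D hD n p.1 hp.1
    have h1' := digSet_lt m D hD n p'.1 hp'.1
    simp only at heq
    have hmod : p.1 = p'.1 := by
      have := congrArg (· % m ^ n) heq
      simp only [Nat.add_mul_mod_self_left] at this
      rwa [Nat.mod_eq_of_lt h1, Nat.mod_eq_of_lt h1'] at this
    have hpos : 0 < m ^ n := by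
      rcases Nat.eq_zero_or_pos (m ^ n) with h0 | h0
      · omega
      · exact h0
    have hq : p.2 = p'.2 := by
      rw [hmod] at heq
      have := Nat.add_left_cancel heq
      exact Nat.eq_of_mul_eq_mul_left hpos this
    exact Prod.ext hmod hq

end Vale.Agent.Lib.P042
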