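import Mathlib
import Vale.Agent.Lib.P042.Digits

namespace Vale.Agent.Lib.P042

open Finset Polynomial

/-- digit pattern: position `0` is `0`, positions `e * j` with `1 ≤ j ≤ L` lie in `A'`,
all other positions are free. -/
def ruzsaD (m e L : ℕ) (A' : Finset ℕ) (i : ℕ) : Finset ℕ :=
  if i = 0 then {0} else if e ∣ i ∧ i / e ≤ L then A' else range m

theorem ruzsaD_subset (m e L : ℕ) (hm : 0 < m) (A' : Finset ℕ) (hA : A' ⊆ range m) (i : ℕ) :
    ruzsaD m e L A' i ⊆ range m := by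
  unfold ruzsaD
  split_ifs with h1 h2
  · intro x hx
    simp only [mem_singleton] at hx
    simp [hx, hm]
  · exact hA
  · exact Subset.refl _

theorem ruzsaD_prod (m e L n : ℕ) (he : 1 ≤ e) (A' : Finset ℕ) (hn : e * L < n) :
    ∏ i ∈ range n, (ruzsaD m e L A' i).card = A'.card ^ L * m ^ (n - 1 - L) := by
  have key : ∀ i ∈ range n, (ruzsaD m e L A' i).card =
      (if i = 0 then 1 else 1) * (if (i ≠ 0 ∧ e ∣ i ∧ i / e ≤ L) then A'.card else
        (if i = 0 then 1 else m)) := by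
    intro i _
    unfold ruzsaD
    by_cases h0 : i = 0
    · simp [h0]
    · by_cases h1 : e ∣ i ∧ i / e ≤ L
      · simp [h0, h1]
      · simp [h0, h1]
  rw [prod_congr rfl key]
  simp only [ite_self, one_mul]
  rw [prod_ite]
  have hT : (range n).filter (fun i => i ≠ 0 ∧ e ∣ i ∧ i / e ≤ L) = (Icc 1 L).image (fun j => e * j) := by
    ext i
    simp only [mem_filter, mem_range, mem_image, mem_Icc]
    constructor
    · rintro ⟨hi, h0, ⟨c, rfl⟩, hle⟩
      have hc : e * c / e = c := Nat.mul_div_cancel_left c (by omega)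
      rw [hc] at hle
      refine ⟨c, ⟨?_, hle⟩, rfl⟩
      rcases Nat.eq_zero_or_pos c with hc0 | hc0
      · subst hc0; simp at h0
      · exact hc0
    · rintro ⟨j, ⟨hj1, hjL⟩, rfl⟩
      refine ⟨?_, ?_, dvd_mul_right e j, ?_⟩
      · calc e * j ≤ e * L := Nat.mul_le_mul_left e hjL
          _ < n := hn
      · have : 0 < e * j := Nat.mul_pos (by omega) (by omega)
        omega
      · rw [Nat.mul_div_cancel_left j (by omega)]
        exact hjL
  rw [hT, prod_const, card_image_of_injective _ (fun a b hab => Nat.eq_of_mul_eq_mul_left (by omega : 0 < e) hab)]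
  simp only [Nat.card_Icc, Nat.add_sub_cancel]
  congr 1
  have hcard : ((range n).filter (fun i => ¬ (i ≠ 0 ∧ e ∣ i ∧ i / e ≤ L))).card = n - L := by
    have h1 := card_filter_add_card_filter_not (s := range n) (fun i => i ≠ 0 ∧ e ∣ i ∧ i / e ≤ L)
    rw [hT, card_image_of_injective _ (fun a b hab => Nat.eq_of_mul_eq_mul_left (by omega : 0 < e) hab)] at h1
    simp only [Nat.card_Icc, Nat.add_sub_cancel, card_range] at h1
    omega
  have h0mem : 0 ∈ (range n).filter (fun i => ¬ (i ≠ 0 ∧ e ∣ i ∧ i / e ≤ L)) := by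
    simp only [mem_filter, mem_range]
    exact ⟨by omega, by simp⟩
  rw [← mul_prod_erase _ _ h0mem]
  simp only [if_true, one_mul]
  rw [prod_congr rfl (g := fun _ => m)]
  · rw [prod_const, card_erase_of_mem h0mem, hcard]
    congr 1
    omega
  · intro i hi
    have := ne_of_mem_erase hi
    simp [this]

theorem digit_sub (m : ℕ) (hm : 0 < m) (i : ℕ) (x y : ℕ) (w : ℤ)
    (h : (x : ℤ) - y = (m : ℤ) ^ i * w) :
    (((x / m ^ i : ℕ)) : ZMod m) - ((y / m ^ i : ℕ) : ZMod m) = (w : ZMod m) := by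
  have hx : (x : ℤ) = y + (m : ℤ) ^ i * w := by linarith
  have hpos : (0 : ℤ) < (m : ℤ) ^ i := by positivity
  have h1 : ((x / m ^ i : ℕ) : ℤ) = ((y / m ^ i : ℕ) : ℤ) + w := by
    push_cast
    rw [hx, Int.add_mul_ediv_left _ _ hpos.ne']
  have h2 : (((x / m ^ i : ℕ) : ℤ) : ZMod m) = (((y / m ^ i : ℕ) : ℤ) : ZMod m) + (w : ZMod m) := by
    rw [h1]; push_cast; ring
  have h3 : (((x / m ^ i : ℕ) : ℤ) : ZMod m) = ((x / m ^ i : ℕ) : ZMod m) := Int.cast_natCast _
  have h4 : (((y / m ^ i : ℕ) : ℤ) : ZMod m) = ((y / m ^ i : ℕ) : ZMod m) := Int.cast_natCast _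
  rw [h3, h4] at h2
  rw [h2]; ring

theorem no_diff (m e d n : ℕ) (g : ℤ[X]) (A : Finset (ZMod m))
    (hm : Squarefree m) (hm2 : 2 ≤ m) (he : 1 ≤ e) (hn : 1 ≤ n)
    (hg : ∀ z : ℤ, IsCoprime (g.eval z) (m : ℤ))
    (hA : ∀ a ∈ A, ∀ a' ∈ A, a ≠ a' → ∀ u : ZMod m, a - a' ≠ ((g.eval 0 : ℤ) : ZMod m) * u ^ e)
    (x y : ℕ)
    (hx : x ∈ digSet m (ruzsaD m e ((n - 1) / (e + d)) (A.image ZMod.val)) n)
    (hy : y ∈ digSet m (ruzsaD m e ((n - 1) / (e + d)) (A.image ZMod.val)) n)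
    (t : ℤ) (hgrow : |t| ^ d ≤ |g.eval t|)
    (ht : (x : ℤ) - y = t ^ e * g.eval t) : x = y := by
  classical
  have : NeZero m := ⟨by omega⟩
  set L := (n - 1) / (e + d) with hL
  set A' := A.image ZMod.val with hA'
  have hA'sub : A' ⊆ range m := by
    intro v hv
    simp only [hA', mem_image] at hv
    obtain ⟨a, _, rfl⟩ := hv
    simp [ZMod.val_lt a]
  have hD := ruzsaD_subset m e L (by omega) A' hA'sub
  have hxlt := digSet_lt m _ hD n x hx
  have hylt := digSet_lt m _ hD n y hy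
  by_cases ht0 : t = 0
  · subst ht0
    rw [zero_pow (by omega), zero_mul] at ht
    omega
  exfalso
  have hx0 := digSet_digit m (by omega) _ hD n x hx 0 (by omega)
  have hy0 := digSet_digit m (by omega) _ hD n y hy 0 (by omega)
  simp only [ruzsaD, if_true, pow_zero, Nat.div_one, mem_singleton] at hx0 hy0
  have hmdvd : (m : ℤ) ∣ t ^ e * g.eval t := by
    rw [← ht]
    have h1 : (m : ℤ) ∣ (x : ℤ) := by exact_mod_cast Nat.dvd_of_mod_eq_zero hx0
    have h2 : (m : ℤ) ∣ (y : ℤ) := by exact_mod_cast Nat.dvd_of_mod_eq_zero hy0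
    exact dvd_sub h1 h2
  have hsqf : Squarefree (m : ℤ) := Int.squarefree_natCast.mpr hm
  have hmt : (m : ℤ) ∣ t := by
    have := (hg t).symm.dvd_of_dvd_mul_right hmdvd
    exact (hsqf.dvd_pow_iff_dvd (by omega)).mp this
  have hfin : FiniteMultiplicity (m : ℤ) t :=
    Int.finiteMultiplicity_iff.mpr ⟨by simp only [Int.natAbs_natCast]; omega, ht0⟩
  obtain ⟨u, hu, hnu⟩ := hfin.exists_eq_pow_mul_and_not_dvd
  set j := multiplicity (m : ℤ) t with hj
  have hj1 : 1 ≤ j := by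
    by_contra hcon
    have hj0 : j = 0 := by omega
    rw [hj0, pow_zero, one_mul] at hu
    rw [hu] at hmt
    exact hnu hmt
  have hu0 : u ≠ 0 := by
    rintro rfl
    exact hnu (dvd_zero _)
  -- size
  have hmj : ((m : ℤ) ^ j) ^ (e + d) ≤ |t ^ e * g.eval t| := by
    have h1 : (m : ℤ) ^ j ≤ |t| := by
      rw [hu, abs_mul, abs_pow, Nat.abs_cast]
      have : (1 : ℤ) ≤ |u| := Int.one_le_abs hu0
      have hp : (0 : ℤ) < (m : ℤ) ^ j := by positivity
      nlinarith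
    have h2 : |t| ^ (e + d) ≤ |t ^ e * g.eval t| := by
      rw [abs_mul, abs_pow, pow_add]
      exact mul_le_mul_of_nonneg_left hgrow (by positivity)
    calc ((m : ℤ) ^ j) ^ (e + d) ≤ |t| ^ (e + d) := by
          apply pow_le_pow_left₀ (by positivity) h1
      _ ≤ _ := h2
  have hlt : |t ^ e * g.eval t| < (m : ℤ) ^ n := by
    rw [← ht]
    have h1 : (x : ℤ) < (m : ℤ) ^ n := by exact_mod_cast hxlt
    have h2 : (y : ℤ) < (m : ℤ) ^ n := by exact_mod_cast hylt
    rw [abs_lt]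
    constructor <;> linarith [Int.natCast_nonneg x, Int.natCast_nonneg y]
  have hjn : j * (e + d) < n := by
    have h3 : ((m : ℤ) ^ j) ^ (e + d) < (m : ℤ) ^ n := lt_of_le_of_lt hmj hlt
    rw [← pow_mul] at h3
    have h4 : m ^ (j * (e + d)) < m ^ n := by exact_mod_cast h3
    exact (Nat.pow_lt_pow_iff_right (by omega)).mp h4
  have hjL : j ≤ L := by
    rw [hL, Nat.le_div_iff_mul_le (by omega)]
    omega
  have hpos : e * j < n := by
    calc e * j ≤ (e + d) * j := Nat.mul_le_mul_right j (by omega)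
      _ = j * (e + d) := by ring
      _ < n := hjn
  have hej0 : e * j ≠ 0 := by
    have : 0 < e * j := Nat.mul_pos (by omega) (by omega)
    omega
  have hcond : e ∣ e * j ∧ e * j / e ≤ L := by
    refine ⟨dvd_mul_right e j, ?_⟩
    rw [Nat.mul_div_cancel_left j (by omega)]
    exact hjL
  have hxd := digSet_digit m (by omega) _ hD n x hx (e * j) hpos
  have hyd := digSet_digit m (by omega) _ hD n y hy (e * j) hpos
  simp only [ruzsaD, hej0, if_false, hcond, and_self, if_true] at hxd hyd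
  have cast_mem : ∀ z : ℕ, z % m ∈ A' → ((z : ℕ) : ZMod m) ∈ A := by
    intro z hz
    simp only [hA', mem_image] at hz
    obtain ⟨a, ha, hval⟩ := hz
    have : ((z : ℕ) : ZMod m) = a := by
      rw [← ZMod.natCast_mod, ← hval, ZMod.natCast_zmod_val]
    rw [this]; exact ha
  have hax := cast_mem _ hxd
  have hay := cast_mem _ hyd
  have hdiff : (x : ℤ) - y = (m : ℤ) ^ (e * j) * (u ^ e * g.eval t) := by
    have hte : t ^ e = ((m : ℤ) ^ j * u) ^ e := congrArg (· ^ e) hu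
    rw [ht, hte]
    ring
  have hds := digit_sub m (by omega) (e * j) x y _ hdiff
  have hg0 : ((g.eval t : ℤ) : ZMod m) = ((g.eval 0 : ℤ) : ZMod m) := by
    have h1 : (m : ℤ) ∣ g.eval t - g.eval 0 := by
      have := sub_dvd_eval_sub t 0 g
      rw [sub_zero] at this
      exact dvd_trans hmt this
    have h2 := (ZMod.intCast_zmod_eq_zero_iff_dvd _ m).mpr h1
    push_cast at h2
    exact sub_eq_zero.mp h2
  by_cases hne : ((x / m ^ (e * j) : ℕ) : ZMod m) = ((y / m ^ (e * j) : ℕ) : ZMod m)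
  · rw [hne, sub_self] at hds
    have h1 : (m : ℤ) ∣ u ^ e * g.eval t := (ZMod.intCast_zmod_eq_zero_iff_dvd _ m).mp hds.symm
    have h2 := (hg t).symm.dvd_of_dvd_mul_right h1
    exact hnu ((hsqf.dvd_pow_iff_dvd (by omega)).mp h2)
  · apply hA _ hax _ hay hne (u : ZMod m)
    rw [hds]
    push_cast
    rw [hg0]
    ring


/-- The digit construction at scale `m ^ n`: a subset of `[1, m ^ n]` of the stated size with
no two elements differing by `t ^ e * g(t)` for any integer `t` with `|t| ^ d ≤ |g(t)|`. -/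
theorem exists_set_pow (m e d n : ℕ) (g : ℤ[X]) (A : Finset (ZMod m))
    (hm : Squarefree m) (hm2 : 2 ≤ m) (he : 1 ≤ e) (hn : 1 ≤ n)
    (hg : ∀ z : ℤ, IsCoprime (g.eval z) (m : ℤ))
    (hA : ∀ a ∈ A, ∀ a' ∈ A, a ≠ a' → ∀ u : ZMod m, a - a' ≠ ((g.eval 0 : ℤ) : ZMod m) * u ^ e) :
    ∃ S : Finset ℕ, S ⊆ Finset.Icc 1 (m ^ n) ∧
      (∀ x ∈ S, ∀ y ∈ S, ∀ t : ℤ, |t| ^ d ≤ |g.eval t| →
        (x : ℤ) - y = t ^ e * g.eval t → x = y) ∧
      S.card = A.card ^ ((n - 1) / (e + d)) * m ^ (n - 1 - (n - 1) / (e + d)) := by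
  classical
  have hne : NeZero m := ⟨by omega⟩
  set L := (n - 1) / (e + d) with hL
  set A' := A.image ZMod.val with hA'
  have hA'sub : A' ⊆ range m := by
    intro v hv
    simp only [hA', mem_image] at hv
    obtain ⟨a, _, rfl⟩ := hv
    simp [ZMod.val_lt a]
  have hD := ruzsaD_subset m e L (by omega) A' hA'sub
  refine ⟨(digSet m (ruzsaD m e L A') n).image (fun x => x + 1), ?_, ?_, ?_⟩
  · intro z hz
    simp only [mem_image] at hz
    obtain ⟨x, hx, rfl⟩ := hz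
    have := digSet_lt m _ hD n x hx
    simp only [mem_Icc]
    omega
  · intro x' hx' y' hy' t hgt ht
    simp only [mem_image] at hx' hy'
    obtain ⟨x, hx, rfl⟩ := hx'
    obtain ⟨y, hy, rfl⟩ := hy'
    have ht' : (x : ℤ) - y = t ^ e * g.eval t := by
      rw [← ht]; push_cast; ring
    have := no_diff m e d n g A hm hm2 he hn hg hA x y hx hy t hgt ht'
    omega
  · rw [card_image_of_injective _ (fun a b hab => by simpa using hab),
      digSet_card m _ hD n, ruzsaD_prod m e L n he A' ?_]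
    · rw [hA', card_image_of_injective _ (ZMod.val_injective m)]
    · have h1 : (e + d) * L ≤ n - 1 := Nat.mul_div_le (n - 1) (e + d)
      have h2 : e * L ≤ (e + d) * L := Nat.mul_le_mul_right L (by omega)
      omega

theorem gamma_eq (m k a : ℕ) (hm2 : 2 ≤ m) (hk : 1 ≤ k) :
    1 - 1 / (k : ℝ) + Real.log a / ((k : ℝ) * Real.log m)
      = 1 - (1 - Real.log a / Real.log m) / k := by
  have hmr : (1 : ℝ) < m := by exact_mod_cast (by omega : 1 < m)
  have hlm : 0 < Real.log m := Real.log_pos hmr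
  have hκ : (0 : ℝ) < k := by exact_mod_cast (by omega : 0 < k)
  field_simp
  ring

theorem rho_bounds (m a : ℕ) (hm2 : 2 ≤ m) (ha1 : 1 ≤ a) (ham : a ≤ m) :
    0 ≤ Real.log a / Real.log m ∧ Real.log a / Real.log m ≤ 1 := by
  have hmr : (1 : ℝ) < m := by exact_mod_cast (by omega : 1 < m)
  have hlm : 0 < Real.log m := Real.log_pos hmr
  have har : (1 : ℝ) ≤ a := by exact_mod_cast ha1
  have hla : 0 ≤ Real.log a := Real.log_nonneg har
  have hlam : Real.log a ≤ Real.log m := Real.log_le_log (by linarith) (by exact_mod_cast ham)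
  exact ⟨div_nonneg hla hlm.le, by rw [div_le_one hlm]; exact hlam⟩

theorem card_bound_rpow (m k n a N : ℕ) (hm2 : 2 ≤ m) (hk : 1 ≤ k) (hn : 1 ≤ n)
    (ha1 : 1 ≤ a) (ham : a ≤ m) (hN : N < m ^ (n + 1)) :
    (N : ℝ) ^ (1 - 1 / (k : ℝ) + Real.log a / ((k : ℝ) * Real.log m)) / (m : ℝ) ^ 3
      ≤ ((a ^ ((n - 1) / k) * m ^ (n - 1 - (n - 1) / k) : ℕ) : ℝ) := by
  set L := (n - 1) / k with hL
  have hLk : L * k ≤ n - 1 := Nat.div_mul_le_self (n - 1) k
  have hLn : L ≤ n - 1 := Nat.div_le_self _ _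
  have hmr : (1 : ℝ) < m := by exact_mod_cast (by omega : 1 < m)
  have hm0 : (0 : ℝ) < m := by linarith
  have hlm : 0 < Real.log m := Real.log_pos hmr
  have har : (1 : ℝ) ≤ a := by exact_mod_cast ha1
  obtain ⟨hρ0, hρ1⟩ := rho_bounds m a hm2 ha1 ham
  have hκ : (1 : ℝ) ≤ k := by exact_mod_cast hk
  rw [gamma_eq m k a hm2 hk]
  set ρ := Real.log a / Real.log m with hρ
  set γ := 1 - (1 - ρ) / (k : ℝ) with hγdef
  have hγ0 : 0 ≤ γ := by
    have : (1 - ρ) / (k : ℝ) ≤ 1 := by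
      rw [div_le_one (by linarith)]; linarith
    linarith
  have ha_eq : (a : ℝ) = (m : ℝ) ^ ρ := by
    rw [Real.rpow_def_of_pos hm0, hρ, mul_div_cancel₀ _ hlm.ne', Real.exp_log (by linarith)]
  have hN' : (N : ℝ) ≤ (m : ℝ) ^ ((n : ℝ) + 1) := by
    have h0 : (N : ℝ) ≤ ((m ^ (n + 1) : ℕ) : ℝ) := by exact_mod_cast hN.le
    rw [show ((n : ℝ) + 1) = ((n + 1 : ℕ) : ℝ) by push_cast; ring, Real.rpow_natCast]
    exact_mod_cast h0
  have h1 : (N : ℝ) ^ γ ≤ (m : ℝ) ^ (((n : ℝ) + 1) * γ) := by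
    rw [Real.rpow_mul hm0.le]
    exact Real.rpow_le_rpow (by positivity) hN' hγ0
  have h2 : ((a ^ L * m ^ (n - 1 - L) : ℕ) : ℝ) = (m : ℝ) ^ (ρ * L + ((n : ℝ) - 1 - L)) := by
    push_cast
    rw [Real.rpow_add hm0, ha_eq, ← Real.rpow_natCast, ← Real.rpow_mul hm0.le,
      ← Real.rpow_natCast (m : ℝ) (n - 1 - L)]
    congr 2
    rw [Nat.cast_sub (by omega), Nat.cast_sub (by omega)]
    simp
  rw [h2, div_le_iff₀ (by positivity)]
  have hLr : (L : ℝ) ≤ ((n : ℝ) + 1) / k := by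
    rw [le_div_iff₀ (by linarith)]
    have h3 : ((L * k : ℕ) : ℝ) ≤ ((n - 1 : ℕ) : ℝ) := by exact_mod_cast hLk
    rw [Nat.cast_sub hn] at h3
    push_cast at h3
    linarith
  have hmul : (1 - ρ) * L ≤ (1 - ρ) * (((n : ℝ) + 1) / k) :=
    mul_le_mul_of_nonneg_left hLr (by linarith)
  have hexpand : ((n : ℝ) + 1) * γ = (n + 1) - (1 - ρ) * (((n : ℝ) + 1) / k) := by
    rw [hγdef]; ring
  calc (N : ℝ) ^ γ ≤ (m : ℝ) ^ (((n : ℝ) + 1) * γ) := h1
    _ ≤ (m : ℝ) ^ (ρ * L + ((n : ℝ) - 1 - L) + 3) := by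
        apply Real.rpow_le_rpow_of_exponent_le hmr.le
        rw [hexpand]
        linarith
    _ = (m : ℝ) ^ (ρ * L + ((n : ℝ) - 1 - L)) * (m : ℝ) ^ 3 := by
        rw [Real.rpow_add hm0]
        norm_num

theorem card_bound_small (m k a N : ℕ) (hm2 : 2 ≤ m) (hk : 1 ≤ k)
    (ha1 : 1 ≤ a) (ham : a ≤ m) (hN1 : 1 ≤ N) (hN : N < m) :
    (N : ℝ) ^ (1 - 1 / (k : ℝ) + Real.log a / ((k : ℝ) * Real.log m)) / (m : ℝ) ^ 3 ≤ 1 := by
  have hmr : (1 : ℝ) < m := by exact_mod_cast (by omega : 1 < m)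
  have hm0 : (0 : ℝ) < m := by linarith
  obtain ⟨hρ0, hρ1⟩ := rho_bounds m a hm2 ha1 ham
  have hκ : (1 : ℝ) ≤ k := by exact_mod_cast hk
  rw [gamma_eq m k a hm2 hk]
  have hγ1 : 1 - (1 - Real.log a / Real.log m) / (k : ℝ) ≤ 1 := by
    have : 0 ≤ (1 - Real.log a / Real.log m) / (k : ℝ) := div_nonneg (by linarith) (by linarith)
    linarith
  have hNr : (1 : ℝ) ≤ N := by exact_mod_cast hN1
  have h1 : (N : ℝ) ^ (1 - (1 - Real.log a / Real.log m) / (k : ℝ)) ≤ (N : ℝ) ^ (1 : ℝ) :=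
    Real.rpow_le_rpow_of_exponent_le hNr hγ1
  rw [Real.rpow_one] at h1
  rw [div_le_one (by positivity)]
  have h2 : (N : ℝ) ≤ m := by exact_mod_cast hN.le
  have h3 : (m : ℝ) ≤ (m : ℝ) ^ 3 := by
    have : (m : ℝ) ^ 1 ≤ (m : ℝ) ^ 3 := pow_le_pow_right₀ hmr.le (by norm_num)
    simpa using this
  linarith

/-- Ruzsa-type lower bound for `h(t) = t ^ e * g(t)`. -/
theorem lower_bound (m e d : ℕ) (g : ℤ[X]) (A : Finset (ZMod m))
    (hm : Squarefree m) (hm2 : 2 ≤ m) (he : 1 ≤ e)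
    (hg : ∀ z : ℤ, IsCoprime (g.eval z) (m : ℤ))
    (hA : ∀ a ∈ A, ∀ a' ∈ A, a ≠ a' → ∀ u : ZMod m, a - a' ≠ ((g.eval 0 : ℤ) : ZMod m) * u ^ e)
    (hAne : A.Nonempty) (N : ℕ) (hN : 1 ≤ N) :
    ∃ S : Finset ℕ, S ⊆ Finset.Icc 1 N ∧
      (∀ x ∈ S, ∀ y ∈ S, ∀ t : ℤ, |t| ^ d ≤ |g.eval t| →
        (x : ℤ) - y = t ^ e * g.eval t → x = y) ∧
      (N : ℝ) ^ (1 - 1 / ((e + d : ℕ) : ℝ) + Real.log (A.card : ℕ) /
        (((e + d : ℕ) : ℝ) * Real.log m)) / (m : ℝ) ^ 3 ≤ (S.card : ℝ) := by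
  have hne : NeZero m := ⟨by omega⟩
  have ha1 : 1 ≤ A.card := Finset.card_pos.mpr hAne
  have ham : A.card ≤ m := by
    have := Finset.card_le_univ A
    rwa [ZMod.card] at this
  rcases Nat.eq_zero_or_pos (Nat.log m N) with h0 | hpos
  · have hNm : N < m := by
      rcases Nat.log_eq_zero_iff.mp h0 with h | h
      · exact h
      · omega
    refine ⟨{1}, ?_, ?_, ?_⟩
    · intro z hz
      simp only [mem_singleton] at hz
      simp [hz, hN]
    · intro x hx y hy _ _ _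
      simp only [mem_singleton] at hx hy
      rw [hx, hy]
    · simpa using card_bound_small m (e + d) A.card N hm2 (by omega) ha1 ham hN hNm
  · obtain ⟨S, hS1, hS2, hS3⟩ := exists_set_pow m e d (Nat.log m N) g A hm hm2 he hpos hg hA
    refine ⟨S, ?_, hS2, ?_⟩
    · intro z hz
      have := hS1 hz
      simp only [mem_Icc] at this ⊢
      have hle := Nat.pow_log_le_self m (by omega : N ≠ 0)
      omega
    · rw [hS3]
      exact card_bound_rpow m (e + d) (Nat.log m N) A.card N hm2 (by omega) hpos ha1 ham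
        (Nat.lt_pow_succ_log_self (by omega) N)

end Vale.Agent.Lib.P042
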