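import Mathlib
import Vale.Agent.Lib.P042.Ruzsa

namespace Vale.Agent.Lib.P042

open Finset Polynomial

theorem eval_lower (P : ℤ[X]) (hl : 1 ≤ P.leadingCoeff) (y : ℤ) (hy : 1 ≤ |y|) :
    |y| ^ P.natDegree - (∑ i ∈ range P.natDegree, |P.coeff i|) * |y| ^ (P.natDegree - 1)
      ≤ |P.eval y| := by
  rw [eval_eq_sum_range, sum_range_succ]
  have h1 : |y| ^ P.natDegree ≤ |P.coeff P.natDegree * y ^ P.natDegree| := by
    rw [abs_mul, abs_pow]
    have h0 : 1 ≤ |P.coeff P.natDegree| := by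
      rw [coeff_natDegree]; exact le_trans hl (le_abs_self _)
    nlinarith [pow_nonneg (abs_nonneg y) P.natDegree]
  have h2 : |∑ i ∈ range P.natDegree, P.coeff i * y ^ i|
      ≤ (∑ i ∈ range P.natDegree, |P.coeff i|) * |y| ^ (P.natDegree - 1) := by
    calc |∑ i ∈ range P.natDegree, P.coeff i * y ^ i|
        ≤ ∑ i ∈ range P.natDegree, |P.coeff i * y ^ i| := abs_sum_le_sum_abs _ _
      _ ≤ ∑ i ∈ range P.natDegree, |P.coeff i| * |y| ^ (P.natDegree - 1) := by
          apply sum_le_sum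
          intro i hi
          rw [abs_mul, abs_pow]
          apply mul_le_mul_of_nonneg_left _ (abs_nonneg _)
          have := mem_range.mp hi
          exact pow_le_pow_right₀ hy (by omega)
      _ = _ := by rw [sum_mul]
  have h3 := abs_sub_abs_le_abs_sub (P.coeff P.natDegree * y ^ P.natDegree)
    (-(∑ i ∈ range P.natDegree, P.coeff i * y ^ i))
  rw [abs_neg, sub_neg_eq_add, add_comm] at h3
  linarith

/-- After a shift by `b` and a dilation by a large power of `m`, the polynomial `g` dominates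
the monomial of its degree at every integer. -/
theorem exists_dilate (m : ℕ) (hm2 : 2 ≤ m) (b : ℤ) (g : ℤ[X]) (hlc : 0 < g.leadingCoeff)
    (hnz : ∀ z : ℤ, g.eval z ≠ 0) :
    ∃ j : ℕ, ∀ t : ℤ, |t| ^ g.natDegree ≤ |g.eval ((m : ℤ) ^ j * t + b)| := by
  set P := taylor b g with hP
  have hPd : P.natDegree = g.natDegree := natDegree_taylor g b
  have hPl : 1 ≤ P.leadingCoeff := by
    rw [hP, leadingCoeff_taylor]; omega
  have hPe : ∀ s : ℤ, P.eval s = g.eval (s + b) := fun s => taylor_eval b g s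
  set Γ := ∑ i ∈ range P.natDegree, |P.coeff i| with hΓ
  have hΓ0 : 0 ≤ Γ := sum_nonneg (fun i _ => abs_nonneg _)
  obtain ⟨j, hj⟩ : ∃ j : ℕ, Γ + 1 ≤ (m : ℤ) ^ j := by
    refine ⟨(Γ + 1).toNat, ?_⟩
    have h1 : (Γ + 1).toNat < m ^ (Γ + 1).toNat := Nat.lt_pow_self (by omega)
    have h2 : ((Γ + 1).toNat : ℤ) = Γ + 1 := Int.toNat_of_nonneg (by omega)
    have h3 : (((Γ + 1).toNat : ℕ) : ℤ) < ((m ^ (Γ + 1).toNat : ℕ) : ℤ) := by exact_mod_cast h1
    rw [h2] at h3
    push_cast at h3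
    omega
  refine ⟨j, ?_⟩
  intro t
  rw [← hPe, ← hPd]
  by_cases ht : t = 0
  · subst ht
    rcases Nat.eq_zero_or_pos P.natDegree with h0 | h0
    · rw [h0, pow_zero]
      have := hnz (0 + b)
      rw [← hPe] at this
      simpa using Int.one_le_abs this
    · rw [abs_zero, zero_pow (by omega)]
      exact abs_nonneg _
  · have ht1 : 1 ≤ |t| := Int.one_le_abs ht
    set M := (m : ℤ) ^ j with hM
    have hM1 : 1 ≤ M := by
      have : (0 : ℤ) ≤ Γ := hΓ0
      omega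
    have hy : 1 ≤ |M * t| := by
      rw [abs_mul, abs_of_pos (by omega : 0 < M)]
      nlinarith
    have hlow := eval_lower P hPl (M * t) hy
    rcases Nat.eq_zero_or_pos P.natDegree with h0 | h0
    · rw [h0, pow_zero]
      have := hnz (M * t + b)
      rw [← hPe] at this
      exact Int.one_le_abs this
    · have hsplit : |M * t| ^ P.natDegree = |M * t| ^ (P.natDegree - 1) * |M * t| := by
        rw [← pow_succ]
        congr 1
        omega
      have hsplit' : |t| ^ P.natDegree = |t| ^ (P.natDegree - 1) * |t| := by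
        rw [← pow_succ]
        congr 1
        omega
      have hMt : |M * t| = M * |t| := by
        rw [abs_mul, abs_of_pos (by omega : 0 < M)]
      have hge : |t| ≤ |M * t| - Γ := by
        rw [hMt]
        nlinarith
      have hpow : |t| ^ (P.natDegree - 1) ≤ |M * t| ^ (P.natDegree - 1) := by
        apply pow_le_pow_left₀ (abs_nonneg t)
        rw [hMt]
        nlinarith
      have hp0 : 0 ≤ |t| ^ (P.natDegree - 1) := pow_nonneg (abs_nonneg t) _
      calc |t| ^ P.natDegree = |t| ^ (P.natDegree - 1) * |t| := hsplit'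
        _ ≤ |M * t| ^ (P.natDegree - 1) * (|M * t| - Γ) := by
            apply mul_le_mul hpow hge (abs_nonneg t)
            exact le_trans hp0 hpow
        _ = |M * t| ^ P.natDegree - Γ * |M * t| ^ (P.natDegree - 1) := by
            rw [hsplit]; ring
        _ ≤ |P.eval (M * t)| := hlow

theorem gamma_mem (m k a : ℕ) (hm2 : 2 ≤ m) (hk : 1 ≤ k) (ha1 : 1 ≤ a) (ham : a ≤ m) :
    0 ≤ 1 - 1 / (k : ℝ) + Real.log a / ((k : ℝ) * Real.log m) ∧
    1 - 1 / (k : ℝ) + Real.log a / ((k : ℝ) * Real.log m) ≤ 1 := by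
  obtain ⟨hρ0, hρ1⟩ := rho_bounds m a hm2 ha1 ham
  have hκ : (1 : ℝ) ≤ k := by exact_mod_cast hk
  rw [gamma_eq m k a hm2 hk]
  have h1 : 0 ≤ (1 - Real.log a / Real.log m) / (k : ℝ) := div_nonneg (by linarith) (by linarith)
  have h2 : (1 - Real.log a / Real.log m) / (k : ℝ) ≤ 1 := by
    rw [div_le_one (by linarith)]; linarith
  constructor <;> linarith

/-- Ruzsa-type lower bound for `h = (X - b) ^ e * g`. -/
theorem lower_bound_shift (m e : ℕ) (b : ℤ) (g : ℤ[X]) (A : Finset (ZMod m))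
    (hm : Squarefree m) (hm2 : 2 ≤ m) (he : 1 ≤ e)
    (hlc : 0 < g.leadingCoeff)
    (hg : ∀ z : ℤ, IsCoprime (g.eval z) (m : ℤ))
    (hA : ∀ a ∈ A, ∀ a' ∈ A, a ≠ a' → ∀ u : ZMod m, a - a' ≠ ((g.eval b : ℤ) : ZMod m) * u ^ e)
    (hAne : A.Nonempty) :
    ∃ c : ℝ, 0 < c ∧ ∀ N : ℕ, 1 ≤ N →
      ∃ S : Finset ℕ, S ⊆ Finset.Icc 1 N ∧
        (∀ x ∈ S, ∀ y ∈ S, ∀ n : ℕ, 1 ≤ n →
          (x : ℤ) - y = ((X - C b) ^ e * g).eval (n : ℤ) → x = y) ∧
        c * (N : ℝ) ^ (1 - 1 / ((e + g.natDegree : ℕ) : ℝ) + Real.log (A.card : ℕ) /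
          (((e + g.natDegree : ℕ) : ℝ) * Real.log m)) ≤ (S.card : ℝ) := by
  classical
  have hne : NeZero m := ⟨by omega⟩
  have ha1 : 1 ≤ A.card := Finset.card_pos.mpr hAne
  have ham : A.card ≤ m := by
    have := Finset.card_le_univ A
    rwa [ZMod.card] at this
  have hnz : ∀ z : ℤ, g.eval z ≠ 0 := by
    intro z hz
    have h1 := hg z
    rw [hz, isCoprime_zero_left, Int.isUnit_iff] at h1
    rcases h1 with h1 | h1 <;> omega
  obtain ⟨j, hj⟩ := exists_dilate m hm2 b g hlc hnz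
  set d := g.natDegree with hd
  set Mz : ℤ := (m : ℤ) ^ j with hMz
  have hMz1 : 1 ≤ Mz := by
    have : (1 : ℤ) ≤ (m : ℤ) := by exact_mod_cast (by omega : 1 ≤ m)
    exact one_le_pow₀ this
  set g' : ℤ[X] := (taylor b g).comp (C Mz * X) with hg'
  have hg'e : ∀ t : ℤ, g'.eval t = g.eval (Mz * t + b) := by
    intro t
    rw [hg', eval_comp, taylor_eval]
    simp
  have hg'cop : ∀ z : ℤ, IsCoprime (g'.eval z) (m : ℤ) := by
    intro z; rw [hg'e]; exact hg _
  have hA' : ∀ a ∈ A, ∀ a' ∈ A, a ≠ a' → ∀ u : ZMod m,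
      a - a' ≠ ((g'.eval 0 : ℤ) : ZMod m) * u ^ e := by
    intro a ha a' ha' hne' u
    rw [hg'e, mul_zero, zero_add]
    exact hA a ha a' ha' hne' u
  set γ := 1 - 1 / ((e + d : ℕ) : ℝ) + Real.log (A.card : ℕ) /
          (((e + d : ℕ) : ℝ) * Real.log m) with hγ
  obtain ⟨hγ0, hγ1⟩ := gamma_mem m (e + d) A.card hm2 (by omega) ha1 ham
  rw [← hγ] at hγ0 hγ1
  set K : ℕ := (m ^ j) ^ e with hK
  have hK1 : 1 ≤ K := Nat.one_le_pow _ _ (Nat.one_le_pow _ _ (by omega))
  have hKz : ((K : ℕ) : ℤ) = Mz ^ e := by rw [hK, hMz]; push_cast; ring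
  have hKr : (1 : ℝ) ≤ (K : ℝ) := by exact_mod_cast hK1
  have hmr : (1 : ℝ) ≤ (m : ℝ) := by exact_mod_cast (by omega : 1 ≤ m)
  have hm3 : (1 : ℝ) ≤ (m : ℝ) ^ 3 := one_le_pow₀ hmr
  refine ⟨1 / (2 * K * (m : ℝ) ^ 3), by positivity, ?_⟩
  intro N hN
  have hNr : (1 : ℝ) ≤ (N : ℝ) := by exact_mod_cast hN
  rcases Nat.eq_zero_or_pos (N / K) with h0 | hpos
  · have hNK : N < K := by
      rcases (Nat.div_eq_zero_iff).mp h0 with h | h
      · omega
      · exact h
    refine ⟨{1}, ?_, ?_, ?_⟩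
    · intro z hz
      simp only [mem_singleton] at hz
      simp [hz, hN]
    · intro x hx y hy _ _ _
      simp only [mem_singleton] at hx hy
      rw [hx, hy]
    · have h1 : (N : ℝ) ^ γ ≤ (N : ℝ) ^ (1 : ℝ) := Real.rpow_le_rpow_of_exponent_le hNr hγ1
      rw [Real.rpow_one] at h1
      have h2 : (N : ℝ) ≤ K := by exact_mod_cast hNK.le
      rw [card_singleton, Nat.cast_one, one_div, inv_mul_le_iff₀ (by positivity)]
      nlinarith
  · obtain ⟨S', hS1, hS2, hS3⟩ := lower_bound m e d g' A hm hm2 he hg'cop hA' hAne (N / K) hpos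
    refine ⟨S'.image (fun x => K * x), ?_, ?_, ?_⟩
    · intro z hz
      simp only [mem_image] at hz
      obtain ⟨x, hx, rfl⟩ := hz
      have := hS1 hx
      simp only [mem_Icc] at this ⊢
      have h1 : K * (N / K) ≤ N := Nat.mul_div_le N K
      have h2 : K * x ≤ K * (N / K) := Nat.mul_le_mul_left K this.2
      have h3 : 1 ≤ K * x := Nat.mul_pos (by omega) (by omega)
      omega
    · intro x' hx' y' hy' n hn hxy
      simp only [mem_image] at hx' hy'
      obtain ⟨x, hx, rfl⟩ := hx'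
      obtain ⟨y, hy, rfl⟩ := hy'
      have hev : ((X - C b) ^ e * g).eval (n : ℤ) = ((n : ℤ) - b) ^ e * g.eval (n : ℤ) := by simp
      rw [hev] at hxy
      push_cast at hxy
      rw [hKz] at hxy
      have hdvd : Mz ^ e ∣ ((n : ℤ) - b) ^ e * g.eval (n : ℤ) := by
        rw [← hxy]
        exact ⟨(x : ℤ) - y, by ring⟩
      have hcop : IsCoprime (Mz ^ e) (g.eval (n : ℤ)) := by
        rw [hMz]
        exact ((hg (n : ℤ)).symm.pow_left).pow_left
      have hdvd2 : Mz ^ e ∣ ((n : ℤ) - b) ^ e := hcop.dvd_of_dvd_mul_right hdvd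
      have hdvd3 : Mz ∣ (n : ℤ) - b := (Int.pow_dvd_pow_iff (by omega)).mp hdvd2
      obtain ⟨t, ht⟩ := hdvd3
      have hn' : (n : ℤ) = Mz * t + b := by linarith
      have hgt : g.eval (n : ℤ) = g'.eval t := by rw [hg'e, hn']
      have hcancel : (x : ℤ) - y = t ^ e * g'.eval t := by
        have h1 : Mz ^ e * ((x : ℤ) - y) = Mz ^ e * (t ^ e * g'.eval t) := by
          rw [← hgt]
          have : Mz ^ e * ((x : ℤ) - y) = Mz ^ e * x - Mz ^ e * y := by ring
          rw [this, hxy, ht]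
          ring
        exact mul_left_cancel₀ (by positivity) h1
      have hgrow : |t| ^ d ≤ |g'.eval t| := by
        rw [hg'e]; exact hj t
      rw [hS2 x hx y hy t hgrow hcancel]
    · rw [card_image_of_injective _ (fun a b hab => Nat.eq_of_mul_eq_mul_left (by omega : 0 < K) hab)]
      have hN2 : (N : ℝ) ≤ 2 * K * ((N / K : ℕ) : ℝ) := by
        have h1 : N < K * (N / K + 1) := Nat.lt_mul_div_succ N (by omega)
        have h2 : N ≤ 2 * K * (N / K) := by nlinarith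
        exact_mod_cast h2
      have hpos' : (0 : ℝ) < ((N / K : ℕ) : ℝ) := by exact_mod_cast hpos
      have h3 : (N : ℝ) ^ γ ≤ (2 * (K : ℝ)) * ((N / K : ℕ) : ℝ) ^ γ := by
        calc (N : ℝ) ^ γ ≤ (2 * K * ((N / K : ℕ) : ℝ)) ^ γ :=
              Real.rpow_le_rpow (by positivity) hN2 hγ0
          _ = (2 * (K : ℝ)) ^ γ * ((N / K : ℕ) : ℝ) ^ γ :=
              Real.mul_rpow (by positivity) (by positivity)
          _ ≤ (2 * (K : ℝ)) ^ (1 : ℝ) * ((N / K : ℕ) : ℝ) ^ γ := by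
              apply mul_le_mul_of_nonneg_right _ (Real.rpow_nonneg hpos'.le _)
              exact Real.rpow_le_rpow_of_exponent_le (by linarith) hγ1
          _ = _ := by rw [Real.rpow_one]
      have h4 : ((N / K : ℕ) : ℝ) ^ γ ≤ (S'.card : ℝ) * (m : ℝ) ^ 3 := by
        rw [← div_le_iff₀ (by positivity)]
        exact hS3
      rw [one_div, inv_mul_le_iff₀ (by positivity)]
      nlinarith


/-- The same bound with the exponent written through the degree of `h = (X - b) ^ e * g`. -/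
theorem lower_bound_shift_deg (m e : ℕ) (b : ℤ) (g : ℤ[X]) (A : Finset (ZMod m))
    (hm : Squarefree m) (hm2 : 2 ≤ m) (he : 1 ≤ e)
    (hlc : 0 < g.leadingCoeff)
    (hg : ∀ z : ℤ, IsCoprime (g.eval z) (m : ℤ))
    (hA : ∀ a ∈ A, ∀ a' ∈ A, a ≠ a' → ∀ u : ZMod m, a - a' ≠ ((g.eval b : ℤ) : ZMod m) * u ^ e)
    (hAne : A.Nonempty) :
    ∃ c : ℝ, 0 < c ∧ ∀ N : ℕ, 1 ≤ N →
      ∃ S : Finset ℕ, S ⊆ Finset.Icc 1 N ∧
        (∀ x ∈ S, ∀ y ∈ S, ∀ n : ℕ, 1 ≤ n →
          (x : ℤ) - y = ((X - C b) ^ e * g).eval (n : ℤ) → x = y) ∧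
        c * (N : ℝ) ^ (1 - 1 / (((X - C b) ^ e * g).natDegree : ℝ) + Real.log (A.card : ℝ) /
          ((((X - C b) ^ e * g).natDegree : ℝ) * Real.log (m : ℝ))) ≤ (S.card : ℝ) := by
  have hg0 : g ≠ 0 := by
    rintro rfl
    simp at hlc
  have hdeg : ((X - C b) ^ e * g).natDegree = e + g.natDegree := by
    rw [natDegree_mul (pow_ne_zero _ (X_sub_C_ne_zero b)) hg0, natDegree_pow, natDegree_X_sub_C,
      mul_one]
  rw [hdeg]
  exact lower_bound_shift m e b g A hm hm2 he hlc hg hA hAne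

end Vale.Agent.Lib.P042
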