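import Mathlib
import Vale.Agent.Lib.P042.Shift

namespace Vale.Agent.Lib.P042

open Finset Polynomial

/-- digit pattern: positions `e * j` with `0 ≤ j ≤ L'` lie in `A'`, all others are free. -/
def powD (m e L' : ℕ) (A' : Finset ℕ) (i : ℕ) : Finset ℕ :=
  if e ∣ i ∧ i / e ≤ L' then A' else range m

theorem powD_subset (m e L' : ℕ) (A' : Finset ℕ) (hA : A' ⊆ range m) (i : ℕ) :
    powD m e L' A' i ⊆ range m := by
  unfold powD
  split_ifs with h1
  · exact hA
  · exact Subset.refl _

theorem powD_prod (m e L' n : ℕ) (he : 1 ≤ e) (A' : Finset ℕ) (hn : e * L' < n) :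
    ∏ i ∈ range n, (powD m e L' A' i).card = A'.card ^ (L' + 1) * m ^ (n - (L' + 1)) := by
  have key : ∀ i ∈ range n, (powD m e L' A' i).card =
      (if (e ∣ i ∧ i / e ≤ L') then A'.card else m) := by
    intro i _
    unfold powD
    split_ifs <;> simp
  rw [prod_congr rfl key, prod_ite]
  have hinj : Function.Injective (fun j : ℕ => e * j) :=
    fun a b hab => Nat.eq_of_mul_eq_mul_left (by omega : 0 < e) hab
  have hT : (range n).filter (fun i => e ∣ i ∧ i / e ≤ L') = (range (L' + 1)).image (fun j => e * j) := by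
    ext i
    simp only [mem_filter, mem_range, mem_image]
    constructor
    · rintro ⟨hi, ⟨c, rfl⟩, hle⟩
      have hc : e * c / e = c := Nat.mul_div_cancel_left c (by omega)
      rw [hc] at hle
      exact ⟨c, by omega, rfl⟩
    · rintro ⟨j, hj, rfl⟩
      refine ⟨?_, dvd_mul_right e j, ?_⟩
      · calc e * j ≤ e * L' := Nat.mul_le_mul_left e (by omega)
          _ < n := hn
      · rw [Nat.mul_div_cancel_left j (by omega)]
        omega
  have hcard : ((range n).filter (fun i => ¬ (e ∣ i ∧ i / e ≤ L'))).card = n - (L' + 1) := by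
    have h1 := card_filter_add_card_filter_not (s := range n) (fun i => e ∣ i ∧ i / e ≤ L')
    rw [hT, card_image_of_injective _ hinj] at h1
    simp only [card_range] at h1
    omega
  rw [hT, prod_const, card_image_of_injective _ hinj, card_range, prod_const, hcard]

theorem pow_kill (m e L' n : ℕ) (A : Finset (ZMod m)) (hm : Squarefree m) (hm2 : 2 ≤ m)
    (he : 1 ≤ e) (hn : e * L' < n)
    (hA : ∀ a ∈ A, ∀ a' ∈ A, a ≠ a' → ∀ w : ZMod m, a - a' ≠ w ^ e)
    (x y : ℕ)
    (hx : x ∈ digSet m (powD m e L' (A.image ZMod.val)) n)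
    (hy : y ∈ digSet m (powD m e L' (A.image ZMod.val)) n)
    (F : ℤ) (hF : F ≠ 0) (hxy : (x : ℤ) - y = F ^ e) : (m : ℤ) ^ (L' + 1) ∣ F := by
  classical
  have hne : NeZero m := ⟨by omega⟩
  set A' := A.image ZMod.val with hA'
  have hA'sub : A' ⊆ range m := by
    intro v hv
    simp only [hA', mem_image] at hv
    obtain ⟨a, _, rfl⟩ := hv
    simp [ZMod.val_lt a]
  have hD := powD_subset m e L' A' hA'sub
  have hsqf : Squarefree (m : ℤ) := Int.squarefree_natCast.mpr hm
  have hfin : FiniteMultiplicity (m : ℤ) F :=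
    Int.finiteMultiplicity_iff.mpr ⟨by simp only [Int.natAbs_natCast]; omega, hF⟩
  obtain ⟨w, hw, hnw⟩ := hfin.exists_eq_pow_mul_and_not_dvd
  set j := multiplicity (m : ℤ) F with hj
  by_cases hjL : L' + 1 ≤ j
  · rw [hw]
    exact dvd_mul_of_dvd_left (pow_dvd_pow _ hjL) _
  · exfalso
    have hjL' : j ≤ L' := by omega
    have hpos : e * j < n := lt_of_le_of_lt (Nat.mul_le_mul_left e hjL') hn
    have hcond : e ∣ e * j ∧ e * j / e ≤ L' := by
      refine ⟨dvd_mul_right e j, ?_⟩
      rw [Nat.mul_div_cancel_left j (by omega)]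
      exact hjL'
    have hxd := digSet_digit m (by omega) _ hD n x hx (e * j) hpos
    have hyd := digSet_digit m (by omega) _ hD n y hy (e * j) hpos
    simp only [powD, hcond, and_self, if_true] at hxd hyd
    have cast_mem : ∀ z : ℕ, z % m ∈ A' → ((z : ℕ) : ZMod m) ∈ A := by
      intro z hz
      simp only [hA', mem_image] at hz
      obtain ⟨a, ha, hval⟩ := hz
      have : ((z : ℕ) : ZMod m) = a := by
        rw [← ZMod.natCast_mod, ← hval, ZMod.natCast_zmod_val]
      rw [this]; exact ha
    have hax := cast_mem _ hxd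
    have hay := cast_mem _ hyd
    have hdiff : (x : ℤ) - y = (m : ℤ) ^ (e * j) * w ^ e := by
      have hFe : F ^ e = ((m : ℤ) ^ j * w) ^ e := congrArg (· ^ e) hw
      rw [hxy, hFe]
      ring
    have hds := digit_sub m (by omega) (e * j) x y _ hdiff
    by_cases hne' : ((x / m ^ (e * j) : ℕ) : ZMod m) = ((y / m ^ (e * j) : ℕ) : ZMod m)
    · rw [hne', sub_self] at hds
      have h1 : (m : ℤ) ∣ w ^ e := (ZMod.intCast_zmod_eq_zero_iff_dvd _ m).mp hds.symm
      exact hnw ((hsqf.dvd_pow_iff_dvd (by omega)).mp h1)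
    · apply hA _ hax _ hay hne' (w : ZMod m)
      rw [hds]
      push_cast
      ring

theorem thin (D : Finset ℕ) : ∀ S : Finset ℕ, ∃ S' : Finset ℕ, S' ⊆ S ∧
    S.card ≤ 2 ^ D.card * S'.card ∧
    ∀ x ∈ S', ∀ y ∈ S', ∀ d ∈ D, 0 < d → x ≠ y + d := by
  classical
  induction D using Finset.induction_on with
  | empty =>
    intro S
    exact ⟨S, Subset.refl _, by simp, by simp⟩
  | insert d D hd ih =>
    intro S
    obtain ⟨S1, hS1, hc1, hp1⟩ := ih S
    set Se := S1.filter (fun x => (x / d) % 2 = 0) with hSe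
    set So := S1.filter (fun x => ¬ (x / d) % 2 = 0) with hSo
    have hsum : Se.card + So.card = S1.card :=
      card_filter_add_card_filter_not (s := S1) (fun x => (x / d) % 2 = 0)
    have hprop : ∀ T : Finset ℕ, T ⊆ S1 →
        (∀ x ∈ T, ∀ y ∈ T, (x / d) % 2 = (y / d) % 2) →
        ∀ x ∈ T, ∀ y ∈ T, ∀ d' ∈ insert d D, 0 < d' → x ≠ y + d' := by
      intro T hT hpar x hx y hy d' hd' hpos
      rcases mem_insert.mp hd' with rfl | hmem
      · intro hxy
        have h1 := hpar x hx y hy
        rw [hxy, Nat.add_div_right _ hpos] at h1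
        omega
      · exact hp1 x (hT hx) y (hT hy) d' hmem hpos
    rw [card_insert_of_notMem hd, pow_succ]
    rcases Nat.le_total So.card Se.card with hle | hle
    · refine ⟨Se, (filter_subset _ _).trans hS1, ?_, ?_⟩
      · calc S.card ≤ 2 ^ D.card * S1.card := hc1
          _ ≤ 2 ^ D.card * (2 * Se.card) := Nat.mul_le_mul_left _ (by omega)
          _ = 2 ^ D.card * 2 * Se.card := by ring
      · apply hprop Se (filter_subset _ _)
        intro x hx y hy
        rw [(mem_filter.mp hx).2, (mem_filter.mp hy).2]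
    · refine ⟨So, (filter_subset _ _).trans hS1, ?_, ?_⟩
      · calc S.card ≤ 2 ^ D.card * S1.card := hc1
          _ ≤ 2 ^ D.card * (2 * So.card) := Nat.mul_le_mul_left _ (by omega)
          _ = 2 ^ D.card * 2 * So.card := by ring
      · apply hprop So (filter_subset _ _)
        intro x hx y hy
        have h1 := (mem_filter.mp hx).2
        have h2 := (mem_filter.mp hy).2
        omega

theorem hensel_unique (m : ℕ) (f u v : ℤ[X]) (R : ℤ) (hR : IsCoprime R (m : ℤ))
    (hbez : u * f + v * derivative f = C R) (j : ℕ) (hj : 1 ≤ j) (t t' : ℤ)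
    (ht : (m : ℤ) ^ j ∣ f.eval t) (ht' : (m : ℤ) ^ j ∣ f.eval t') (hcong : (m : ℤ) ∣ t' - t) :
    (m : ℤ) ^ j ∣ t' - t := by
  obtain ⟨k, hk⟩ := f.binomExpansion t (t' - t)
  have hmt : (m : ℤ) ∣ f.eval t := dvd_trans (dvd_pow_self _ (by omega)) ht
  have hev : u.eval t * f.eval t + v.eval t * (derivative f).eval t = R := by
    have := congrArg (eval t) hbez
    simpa using this
  have hcop1 : IsCoprime ((derivative f).eval t) (m : ℤ) := by
    obtain ⟨c, hc⟩ := hmt
    have h1 : IsCoprime (v.eval t * (derivative f).eval t + (m : ℤ) * (u.eval t * c)) (m : ℤ) := by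
      have : v.eval t * (derivative f).eval t + (m : ℤ) * (u.eval t * c) = R := by
        rw [← hev, hc]; ring
      rw [this]; exact hR
    have h2 : IsCoprime (v.eval t * (derivative f).eval t) (m : ℤ) :=
      IsCoprime.of_add_mul_left_left h1
    exact IsCoprime.of_mul_left_right h2
  have hcop2 : IsCoprime ((derivative f).eval t + k * (t' - t)) (m : ℤ) := by
    obtain ⟨c, hc⟩ := hcong
    have : (derivative f).eval t + k * (t' - t) = (derivative f).eval t + (m : ℤ) * (k * c) := by
      rw [hc]; ring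
    rw [this]
    exact IsCoprime.add_mul_left_left hcop1 _
  have hcop3 : IsCoprime ((m : ℤ) ^ j) ((derivative f).eval t + k * (t' - t)) :=
    hcop2.symm.pow_left
  have hdiv : (m : ℤ) ^ j ∣ (t' - t) * ((derivative f).eval t + k * (t' - t)) := by
    have h1 : f.eval t' - f.eval t = (t' - t) * ((derivative f).eval t + k * (t' - t)) := by
      have h2 : t + (t' - t) = t' := by ring
      rw [h2] at hk
      rw [hk]; ring
    rw [← h1]
    exact dvd_sub ht' ht
  exact hcop3.dvd_of_dvd_mul_right hdiv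

end Vale.Agent.Lib.P042
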