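import Mathlib
import Vale.Agent.Lib.P042.PowerA

namespace Vale.Agent.Lib.P042

open Finset Polynomial

theorem growth_two (f : ℤ[X]) (hd : 1 ≤ f.natDegree) (hl : 1 ≤ f.leadingCoeff) :
    ∃ t0 : ℕ, ∀ t : ℤ, (t0 : ℤ) ≤ |t| → |t| ^ f.natDegree ≤ 2 * |f.eval t| := by
  set Γ := ∑ i ∈ range f.natDegree, |f.coeff i| with hΓ
  have hΓ0 : 0 ≤ Γ := sum_nonneg (fun i _ => abs_nonneg _)
  refine ⟨(2 * Γ + 1).toNat, ?_⟩
  intro t ht
  have h2 : ((2 * Γ + 1).toNat : ℤ) = 2 * Γ + 1 := Int.toNat_of_nonneg (by omega)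
  rw [h2] at ht
  have ht1 : 1 ≤ |t| := by omega
  have hlow := eval_lower f hl t ht1
  have hsplit : |t| ^ f.natDegree = |t| ^ (f.natDegree - 1) * |t| := by
    rw [← pow_succ]; congr 1; omega
  have hp0 : 0 ≤ |t| ^ (f.natDegree - 1) := pow_nonneg (abs_nonneg t) _
  have h3 : 2 * (Γ * |t| ^ (f.natDegree - 1)) ≤ |t| ^ f.natDegree := by
    rw [hsplit]; nlinarith
  linarith

theorem survivors_card (m : ℕ) (hm2 : 2 ≤ m) (f u v : ℤ[X]) (R : ℤ) (hR : IsCoprime R (m : ℤ))
    (hbez : u * f + v * derivative f = C R) (L : ℕ) (hL : 2 ≤ L) :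
    ((Finset.Ico 1 (m ^ L)).filter
      (fun t : ℕ => (m : ℤ) ^ (L - 1) ∣ f.eval (t : ℤ))).card ≤ m * m := by
  classical
  set T := (Finset.Ico 1 (m ^ L)).filter (fun t : ℕ => (m : ℤ) ^ (L - 1) ∣ f.eval (t : ℤ))
    with hT
  have hmap : ∀ t ∈ T, (fun t : ℕ => (t % m, t / m ^ (L - 1))) t ∈ (range m) ×ˢ (range m) := by
    intro t ht
    simp only [mem_product, mem_range]
    refine ⟨Nat.mod_lt _ (by omega), ?_⟩
    have h1 := (mem_Ico.mp (mem_filter.mp ht).1).2
    rw [Nat.div_lt_iff_lt_mul (by positivity)]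
    calc t < m ^ L := h1
      _ = m * m ^ (L - 1) := by
          rw [← pow_succ']; congr 1; omega
  have hinj : Set.InjOn (fun t : ℕ => (t % m, t / m ^ (L - 1))) T := by
    intro t ht t' ht' heq
    simp only [Prod.mk.injEq] at heq
    obtain ⟨h1, h2⟩ := heq
    have hd1 := (mem_filter.mp (mem_coe.mp ht)).2
    have hd2 := (mem_filter.mp (mem_coe.mp ht')).2
    have hcong : (m : ℤ) ∣ (t' : ℤ) - t := (Nat.modEq_iff_dvd (n := m) (a := t) (b := t')).mp h1
    have hdvd := hensel_unique m f u v R hR hbez (L - 1) (by omega) t t' hd1 hd2 hcong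
    have hmod : t % m ^ (L - 1) = t' % m ^ (L - 1) := by
      apply (Nat.modEq_iff_dvd (n := m ^ (L - 1)) (a := t) (b := t')).mpr
      push_cast
      exact hdvd
    calc t = m ^ (L - 1) * (t / m ^ (L - 1)) + t % m ^ (L - 1) := (Nat.div_add_mod _ _).symm
      _ = m ^ (L - 1) * (t' / m ^ (L - 1)) + t' % m ^ (L - 1) := by rw [h2, hmod]
      _ = t' := Nat.div_add_mod _ _
  calc T.card ≤ ((range m) ×ˢ (range m)).card := card_le_card_of_injOn _ hmap hinj
    _ = m * m := by simp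

/-- The digit construction for `h = f ^ e`. -/
theorem exists_set_power (m e : ℕ) (f : ℤ[X]) (A : Finset (ZMod m)) (hm : Squarefree m)
    (hm2 : 2 ≤ m) (he : 1 ≤ e) (hd : 1 ≤ f.natDegree) (hlc : 0 < f.leadingCoeff)
    (hsep : ∃ u v : ℤ[X], ∃ R : ℤ, IsCoprime R (m : ℤ) ∧ u * f + v * derivative f = C R)
    (hA : ∀ a ∈ A, ∀ a' ∈ A, a ≠ a' → ∀ w : ZMod m, a - a' ≠ w ^ e) :
    ∃ L0 : ℕ, ∀ L : ℕ, L0 ≤ L →
      ∃ S : Finset ℕ, S ⊆ Finset.Icc 1 (m ^ (L * f.natDegree * e - e)) ∧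
        (∀ x ∈ S, ∀ y ∈ S, ∀ n : ℕ, 1 ≤ n → (x : ℤ) - y = (f ^ e).eval (n : ℤ) → x = y) ∧
        A.card ^ (L - 1) * m ^ (L * f.natDegree * e - e - (L - 1)) ≤ 2 ^ (m * m) * S.card := by
  classical
  have hne : NeZero m := ⟨by omega⟩
  obtain ⟨u, v, R, hR, hbez⟩ := hsep
  obtain ⟨t0, ht0⟩ := growth_two f hd (by omega)
  set d := f.natDegree with hd'
  refine ⟨t0 + 2, ?_⟩
  intro L hL
  have hL2 : 2 ≤ L := by omega
  set n := L * d * e - e with hn
  have hLde : e ≤ L * d * e := by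
    calc e = 1 * e := (one_mul e).symm
      _ ≤ (L * d) * e := Nat.mul_le_mul_right e (Nat.mul_pos (by omega) (by omega))
  have hnpos : e * (L - 2) < n := by
    have h1 : L * e ≤ L * d * e := by
      calc L * e = L * 1 * e := by ring
        _ ≤ L * d * e := Nat.mul_le_mul_right e (Nat.mul_le_mul_left L hd)
    have h2 : e * (L - 2) + e + e = L * e := by
      have h3 : L - 2 + 2 = L := by omega
      calc e * (L - 2) + e + e = e * (L - 2 + 2) := by ring
        _ = L * e := by rw [h3]; ring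
    omega
  set A' := A.image ZMod.val with hA'
  have hA'sub : A' ⊆ range m := by
    intro z hz
    simp only [hA', mem_image] at hz
    obtain ⟨a, _, rfl⟩ := hz
    simp [ZMod.val_lt a]
  have hD := powD_subset m e (L - 2) A' hA'sub
  set S0 := digSet m (powD m e (L - 2) A') n with hS0
  have hS0lt : ∀ x ∈ S0, x < m ^ n := fun x hx => digSet_lt m _ hD n x hx
  have hS0card : S0.card = A.card ^ (L - 1) * m ^ (n - (L - 1)) := by
    rw [hS0, digSet_card m _ hD n, powD_prod m e (L - 2) n he A' hnpos, hA',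
      card_image_of_injective _ (ZMod.val_injective m)]
    have h3 : L - 2 + 1 = L - 1 := by omega
    rw [h3]
  set T := (Finset.Ico 1 (m ^ L)).filter (fun t : ℕ => (m : ℤ) ^ (L - 1) ∣ f.eval (t : ℤ))
    with hT
  have hTcard : T.card ≤ m * m := survivors_card m hm2 f u v R hR hbez L hL2
  set Dset := T.image (fun t : ℕ => ((f.eval (t : ℤ)) ^ e).natAbs) with hDset
  have hDcard : Dset.card ≤ m * m := le_trans card_image_le hTcard
  obtain ⟨S1, hS1sub, hS1card, hS1prop⟩ := thin Dset S0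
  refine ⟨S1.image (fun x => x + 1), ?_, ?_, ?_⟩
  · intro z hz
    simp only [mem_image] at hz
    obtain ⟨x, hx, rfl⟩ := hz
    have := hS0lt x (hS1sub hx)
    simp only [mem_Icc]
    omega
  · intro x' hx' y' hy' k hk hxy
    simp only [mem_image] at hx' hy'
    obtain ⟨x, hx, rfl⟩ := hx'
    obtain ⟨y, hy, rfl⟩ := hy'
    have hxy' : (x : ℤ) - y = (f.eval (k : ℤ)) ^ e := by
      have h3 : (f ^ e).eval (k : ℤ) = (f.eval (k : ℤ)) ^ e := by simp
      rw [← h3, ← hxy]; push_cast; ring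
    by_cases hF : f.eval (k : ℤ) = 0
    · rw [hF, zero_pow (by omega)] at hxy'
      have h3 : x = y := by omega
      rw [h3]
    · exfalso
      have hkill := pow_kill m e (L - 2) n A hm hm2 he hnpos hA x y (hS1sub hx) (hS1sub hy)
        _ hF hxy'
      have hL21 : L - 2 + 1 = L - 1 := by omega
      rw [hL21] at hkill
      have hxlt := hS0lt x (hS1sub hx)
      have hylt := hS0lt y (hS1sub hy)
      have habs : |(f.eval (k : ℤ)) ^ e| < (m : ℤ) ^ n := by
        rw [← hxy', abs_lt]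
        have h1 : (x : ℤ) < (m : ℤ) ^ n := by exact_mod_cast hxlt
        have h2 : (y : ℤ) < (m : ℤ) ^ n := by exact_mod_cast hylt
        constructor <;> linarith [Int.natCast_nonneg x, Int.natCast_nonneg y]
      by_cases hkL : k < m ^ L
      · have hkT : k ∈ T := by
          simp only [hT, mem_filter, mem_Ico]
          exact ⟨⟨hk, hkL⟩, hkill⟩
        have hdD : ((f.eval (k : ℤ)) ^ e).natAbs ∈ Dset := mem_image_of_mem _ hkT
        have hdpos : 0 < ((f.eval (k : ℤ)) ^ e).natAbs := Int.natAbs_pos.mpr (pow_ne_zero _ hF)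
        rcases Int.natAbs_eq ((f.eval (k : ℤ)) ^ e) with h | h
        · apply hS1prop x hx y hy _ hdD hdpos
          have h3 : (x : ℤ) = y + (((f.eval (k : ℤ)) ^ e).natAbs : ℤ) := by
            rw [← h]; linarith
          exact_mod_cast h3
        · apply hS1prop y hy x hx _ hdD hdpos
          have h3 : (y : ℤ) = x + (((f.eval (k : ℤ)) ^ e).natAbs : ℤ) := by
            linarith
          exact_mod_cast h3
      · have hkge : m ^ L ≤ k := by omega
        have hLlt : L < m ^ L := Nat.lt_pow_self (by omega)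
        have ht0k : (t0 : ℤ) ≤ |(k : ℤ)| := by
          rw [abs_of_nonneg (by positivity)]
          exact_mod_cast (by omega : t0 ≤ k)
        have hg := ht0 (k : ℤ) ht0k
        rw [abs_of_nonneg (by positivity : (0 : ℤ) ≤ (k : ℤ))] at hg
        have hkge' : (m : ℤ) ^ L ≤ (k : ℤ) := by exact_mod_cast hkge
        have h1 : ((m : ℤ) ^ L) ^ d ≤ 2 * |f.eval (k : ℤ)| :=
          le_trans (pow_le_pow_left₀ (by positivity) hkge' d) hg
        have h2 : (((m : ℤ) ^ L) ^ d) ^ e ≤ (2 * |f.eval (k : ℤ)|) ^ e :=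
          pow_le_pow_left₀ (by positivity) h1 e
        have h3 : (2 * |f.eval (k : ℤ)|) ^ e ≤ (m : ℤ) ^ e * |(f.eval (k : ℤ)) ^ e| := by
          rw [mul_pow, abs_pow]
          apply mul_le_mul_of_nonneg_right _ (by positivity)
          apply pow_le_pow_left₀ (by norm_num)
          exact_mod_cast hm2
        have h4 : (m : ℤ) ^ e * |(f.eval (k : ℤ)) ^ e| < (m : ℤ) ^ e * (m : ℤ) ^ n :=
          mul_lt_mul_of_pos_left habs (by positivity)
        have h5 : (m : ℤ) ^ e * (m : ℤ) ^ n = (((m : ℤ) ^ L) ^ d) ^ e := by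
          have hexp : e + n = L * d * e := by omega
          rw [← pow_add, hexp, pow_mul, pow_mul]
        linarith
  · rw [card_image_of_injective _ (fun a b hab => by simpa using hab)]
    calc A.card ^ (L - 1) * m ^ (n - (L - 1)) = S0.card := hS0card.symm
      _ ≤ 2 ^ Dset.card * S1.card := hS1card
      _ ≤ 2 ^ (m * m) * S1.card :=
          Nat.mul_le_mul_right _ (Nat.pow_le_pow_right (by norm_num) hDcard)

end Vale.Agent.Lib.P042
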