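import Mathlib
import Vale.Agent.Lib.P042.PowerB

namespace Vale.Agent.Lib.P042

open Finset Polynomial

theorem power_card_bound (m k e L L1 a N : ℕ) (hm2 : 2 ≤ m) (hk : 1 ≤ k) (hek : e ≤ k)
    (hL : 1 ≤ L) (hL1 : 1 ≤ L1) (ha1 : 1 ≤ a) (ham : a ≤ m) (hN : N < m ^ ((L + 1) * k)) :
    (N : ℝ) ^ (1 - 1 / (k : ℝ) + Real.log a / ((k : ℝ) * Real.log m)) / (m : ℝ) ^ ((L1 + 1) * k)
      ≤ ((a ^ (L - 1) * m ^ (L * k - e - (L - 1)) : ℕ) : ℝ) := by
  have hmr : (1 : ℝ) < m := by exact_mod_cast (by omega : 1 < m)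
  have hm0 : (0 : ℝ) < m := by linarith
  have hlm : 0 < Real.log m := Real.log_pos hmr
  have har : (1 : ℝ) ≤ a := by exact_mod_cast ha1
  obtain ⟨hρ0, hρ1⟩ := rho_bounds m a hm2 ha1 ham
  have hκ : (1 : ℝ) ≤ k := by exact_mod_cast hk
  rw [gamma_eq m k a hm2 hk]
  set ρ := Real.log a / Real.log m with hρ
  set γ := 1 - (1 - ρ) / (k : ℝ) with hγdef
  have hγ0 : 0 ≤ γ := by
    have : (1 - ρ) / (k : ℝ) ≤ 1 := by
      rw [div_le_one (by linarith)]; linarith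
    linarith
  have ha_eq : (a : ℝ) = (m : ℝ) ^ ρ := by
    rw [Real.rpow_def_of_pos hm0, hρ, mul_div_cancel₀ _ hlm.ne', Real.exp_log (by linarith)]
  have hN' : (N : ℝ) ≤ (m : ℝ) ^ (((L : ℝ) + 1) * k) := by
    have h0 : (N : ℝ) ≤ ((m ^ ((L + 1) * k) : ℕ) : ℝ) := by exact_mod_cast hN.le
    rw [show (((L : ℝ) + 1) * k) = (((L + 1) * k : ℕ) : ℝ) by push_cast; ring, Real.rpow_natCast]
    exact_mod_cast h0
  have h1 : (N : ℝ) ^ γ ≤ (m : ℝ) ^ ((((L : ℝ) + 1) * k) * γ) := by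
    rw [Real.rpow_mul hm0.le]
    exact Real.rpow_le_rpow (by positivity) hN' hγ0
  have hsub1 : L - 1 ≤ L * k - e := by
    have h3 : L * 1 ≤ L * k := Nat.mul_le_mul_left L hk
    have h4 : (L - 1) * k + k = L * k := by
      have : L - 1 + 1 = L := by omega
      calc (L - 1) * k + k = (L - 1 + 1) * k := by ring
        _ = L * k := by rw [this]
    have h5 : (L - 1) * 1 ≤ (L - 1) * k := Nat.mul_le_mul_left (L - 1) hk
    omega
  have hsub2 : e ≤ L * k := by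
    have h3 : 1 * k ≤ L * k := Nat.mul_le_mul_right k hL
    omega
  have h2 : ((a ^ (L - 1) * m ^ (L * k - e - (L - 1)) : ℕ) : ℝ)
      = (m : ℝ) ^ (ρ * ((L : ℝ) - 1) + ((L : ℝ) * k - e - ((L : ℝ) - 1))) := by
    push_cast
    rw [Real.rpow_add hm0, ha_eq, ← Real.rpow_natCast, ← Real.rpow_mul hm0.le,
      ← Real.rpow_natCast (m : ℝ) (L * k - e - (L - 1))]
    congr 2
    · rw [Nat.cast_sub hL]; simp
    · rw [Nat.cast_sub hsub1, Nat.cast_sub hsub2, Nat.cast_sub hL]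
      push_cast
      ring
  rw [h2, div_le_iff₀ (by positivity)]
  have hL1r : (1 : ℝ) ≤ L1 := by exact_mod_cast hL1
  have her : (e : ℝ) ≤ k := by exact_mod_cast hek
  have hexpand : (((L : ℝ) + 1) * k) * γ = ((L : ℝ) + 1) * k - ((L : ℝ) + 1) * (1 - ρ) := by
    rw [hγdef]; field_simp
  calc (N : ℝ) ^ γ ≤ (m : ℝ) ^ ((((L : ℝ) + 1) * k) * γ) := h1
    _ ≤ (m : ℝ) ^ (ρ * ((L : ℝ) - 1) + ((L : ℝ) * k - e - ((L : ℝ) - 1))
          + (((L1 + 1) * k : ℕ) : ℝ)) := by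
        apply Real.rpow_le_rpow_of_exponent_le hmr.le
        rw [hexpand]
        push_cast
        nlinarith
    _ = (m : ℝ) ^ (ρ * ((L : ℝ) - 1) + ((L : ℝ) * k - e - ((L : ℝ) - 1)))
          * (m : ℝ) ^ ((L1 + 1) * k) := by
        rw [Real.rpow_add hm0, Real.rpow_natCast]



/-- Ruzsa-type lower bound for perfect powers `h = f ^ e`. -/
theorem power_lower_bound (m e : ℕ) (f : ℤ[X]) (A : Finset (ZMod m)) (hm : Squarefree m)
    (hm2 : 2 ≤ m) (he : 1 ≤ e) (hd : 1 ≤ f.natDegree) (hlc : 0 < f.leadingCoeff)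
    (hsep : ∃ u v : ℤ[X], ∃ R : ℤ, IsCoprime R (m : ℤ) ∧ u * f + v * derivative f = C R)
    (hA : ∀ a ∈ A, ∀ a' ∈ A, a ≠ a' → ∀ w : ZMod m, a - a' ≠ w ^ e)
    (hAne : A.Nonempty) :
    ∃ c : ℝ, 0 < c ∧ ∀ N : ℕ, 1 ≤ N →
      ∃ S : Finset ℕ, S ⊆ Finset.Icc 1 N ∧
        (∀ x ∈ S, ∀ y ∈ S, ∀ n : ℕ, 1 ≤ n → (x : ℤ) - y = (f ^ e).eval (n : ℤ) → x = y) ∧
        c * (N : ℝ) ^ (1 - 1 / ((f.natDegree * e : ℕ) : ℝ) + Real.log (A.card : ℕ) /
          (((f.natDegree * e : ℕ) : ℝ) * Real.log m)) ≤ (S.card : ℝ) := by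
  classical
  have hne : NeZero m := ⟨by omega⟩
  have ha1 : 1 ≤ A.card := Finset.card_pos.mpr hAne
  have ham : A.card ≤ m := by
    have := Finset.card_le_univ A
    rwa [ZMod.card] at this
  obtain ⟨L0, hL0⟩ := exists_set_power m e f A hm hm2 he hd hlc hsep hA
  set d := f.natDegree with hd'
  set k := d * e with hk
  have hk1 : 1 ≤ k := Nat.mul_pos (by omega) (by omega)
  have hek : e ≤ k := by
    calc e = 1 * e := (one_mul e).symm
      _ ≤ d * e := Nat.mul_le_mul_right e hd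
  set L1 := L0 + 2 with hL1
  set γ := 1 - 1 / ((k : ℕ) : ℝ) + Real.log (A.card : ℕ) / (((k : ℕ) : ℝ) * Real.log m) with hγ
  obtain ⟨hγ0, hγ1⟩ := gamma_mem m k A.card hm2 hk1 ha1 ham
  rw [← hγ] at hγ0 hγ1
  have hmr : (1 : ℝ) ≤ (m : ℝ) := by exact_mod_cast (by omega : 1 ≤ m)
  have hm0 : (0 : ℝ) < (m : ℝ) := by linarith
  have hP : (0 : ℝ) < (2 : ℝ) ^ (m * m) := by positivity
  have hQ : (0 : ℝ) < (m : ℝ) ^ ((L1 + 1) * k) := by positivity
  refine ⟨1 / ((2 : ℝ) ^ (m * m) * (m : ℝ) ^ ((L1 + 1) * k)), by positivity, ?_⟩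
  intro N hN
  have hNr : (1 : ℝ) ≤ (N : ℝ) := by exact_mod_cast hN
  set nN := Nat.log m N with hnN
  set L := (nN + e) / k with hL
  have hLk : L * k ≤ nN + e := Nat.div_mul_le_self _ _
  have hLk2 : nN + e < k * (L + 1) := Nat.lt_mul_div_succ _ (by omega)
  have hNlt : N < m ^ ((L + 1) * k) := by
    have h1 : N < m ^ (nN + 1) := Nat.lt_pow_succ_log_self (by omega) N
    have h2 : m ^ (nN + 1) ≤ m ^ ((L + 1) * k) := by
      apply Nat.pow_le_pow_right (by omega)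
      have : k * (L + 1) = (L + 1) * k := Nat.mul_comm _ _
      omega
    omega
  have hmN : m ^ nN ≤ N := Nat.pow_log_le_self m (by omega)
  by_cases hLL : L1 ≤ L
  · obtain ⟨S, hS1, hS2, hS3⟩ := hL0 L (by omega)
    have hassoc : L * d * e = L * k := by rw [hk]; ring
    rw [hassoc] at hS1 hS3
    refine ⟨S, ?_, hS2, ?_⟩
    · intro z hz
      have h1 := hS1 hz
      simp only [mem_Icc] at h1 ⊢
      have h2 : m ^ (L * k - e) ≤ m ^ nN := Nat.pow_le_pow_right (by omega) (by omega)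
      omega
    · have hb := power_card_bound m k e L L1 A.card N hm2 hk1 hek (by omega) (by omega) ha1 ham hNlt
      rw [← hγ] at hb
      have hS3r : ((A.card ^ (L - 1) * m ^ (L * k - e - (L - 1)) : ℕ) : ℝ)
          ≤ (2 : ℝ) ^ (m * m) * (S.card : ℝ) := by
        exact_mod_cast hS3
      rw [div_le_iff₀ hQ] at hb
      rw [one_div, inv_mul_le_iff₀ (by positivity)]
      nlinarith
  · have hLlt : L < L1 := by omega
    refine ⟨{1}, ?_, ?_, ?_⟩
    · intro z hz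
      simp only [mem_singleton] at hz
      simp [hz, hN]
    · intro x hx y hy _ _ _
      simp only [mem_singleton] at hx hy
      rw [hx, hy]
    · have h1 : (N : ℝ) ^ γ ≤ (N : ℝ) ^ (1 : ℝ) := Real.rpow_le_rpow_of_exponent_le hNr hγ1
      rw [Real.rpow_one] at h1
      have h2 : N ≤ m ^ ((L1 + 1) * k) := by
        have h3 : m ^ ((L + 1) * k) ≤ m ^ ((L1 + 1) * k) :=
          Nat.pow_le_pow_right (by omega) (Nat.mul_le_mul_right k (by omega))
        omega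
      have h2r : (N : ℝ) ≤ (m : ℝ) ^ ((L1 + 1) * k) := by exact_mod_cast h2
      have hP1 : (1 : ℝ) ≤ (2 : ℝ) ^ (m * m) := one_le_pow₀ (by norm_num)
      rw [card_singleton, Nat.cast_one, one_div, inv_mul_le_iff₀ (by positivity)]
      nlinarith

end Vale.Agent.Lib.P042
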