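import Mathlib
import Vale.Agent.Lib.P042.PowerC

namespace Vale.Agent.Lib.P042

open Finset Polynomial

/-- For a prime `p ≡ 1 (mod 2e)` with `e ≥ 2` there is a residue `ν` such that neither `ν` nor
`-ν` is an `e`-th power modulo `p`. -/
theorem exists_non_power (p e : ℕ) [hp : Fact p.Prime] (he : 2 ≤ e) (hpe : p ≡ 1 [MOD 2 * e]) :
    ∃ ν : ZMod p, ν ≠ 0 ∧ ∀ w : ZMod p, ν ≠ w ^ e ∧ -ν ≠ w ^ e := by
  have hp1 : 1 ≤ p := hp.out.one_lt.le
  have hdvd : 2 * e ∣ p - 1 := (Nat.modEq_iff_dvd' hp1).mp hpe.symm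
  obtain ⟨q, hq⟩ := hdvd
  have hp2 : 2 ≤ p := hp.out.two_le
  have hq0 : 0 < q := by
    rcases Nat.eq_zero_or_pos q with h | h
    · subst h
      have : p = 2 := by
        have hodd : p - 1 = 0 := by simpa using hq
        omega
      subst this
      have h1 : (2 : ℕ) % (2 * e) = 1 % (2 * e) := hpe
      have h2 : 2 < 2 * e := by omega
      rw [Nat.mod_eq_of_lt h2, Nat.mod_eq_of_lt (by omega)] at h1
      omega
    · exact h
  obtain ⟨g, hg⟩ := IsCyclic.exists_generator (α := (ZMod p)ˣ)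
  have hord : orderOf g = p - 1 := by
    rw [orderOf_eq_card_of_forall_mem_zpowers hg, Nat.card_eq_fintype_card, ZMod.card_units]
  have hcard : ∀ x : (ZMod p)ˣ, x ^ (p - 1) = 1 := ZMod.units_pow_card_sub_one_eq_one p
  -- the generator is not an e-th power
  have hnot : ∀ w : ZMod p, (g : ZMod p) ≠ w ^ e := by
    intro w hw
    have hw0 : w ≠ 0 := by
      rintro rfl
      rw [zero_pow (by omega)] at hw
      exact g.ne_zero hw
    set w' : (ZMod p)ˣ := Units.mk0 w hw0 with hw'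
    have hgw : g = w' ^ e := by
      apply Units.ext
      rw [Units.val_pow_eq_pow_val, hw', Units.val_mk0]
      exact hw
    have h1 : g ^ (2 * q) = 1 := by
      rw [hgw, ← pow_mul]
      have : e * (2 * q) = p - 1 := by rw [hq]; ring
      rw [this]
      exact hcard w'
    have h2 : 2 * q < orderOf g := by
      rw [hord, hq]
      have : 2 * q * 2 ≤ 2 * q * e := Nat.mul_le_mul_left _ he
      nlinarith
    exact pow_ne_one_of_lt_orderOf (by omega) h2 h1
  -- minus one is an e-th power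
  have hneg : ∃ η : ZMod p, η ^ e = -1 := by
    refine ⟨((g ^ q : (ZMod p)ˣ) : ZMod p), ?_⟩
    have h1 : (g ^ (q * e)) ^ 2 = 1 := by
      rw [← pow_mul]
      have : q * e * 2 = p - 1 := by rw [hq]; ring
      rw [this]
      exact hcard g
    have h2 : g ^ (q * e) ≠ 1 := by
      apply pow_ne_one_of_lt_orderOf
      · have := Nat.mul_pos hq0 (by omega : 0 < e)
        omega
      · rw [hord, hq]
        have : 0 < q * e := Nat.mul_pos hq0 (by omega)
        nlinarith
    have h3 : (((g ^ (q * e) : (ZMod p)ˣ) : ZMod p)) ^ 2 = 1 := by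
      rw [← Units.val_pow_eq_pow_val, h1, Units.val_one]
    have h4 : ((g ^ (q * e) : (ZMod p)ˣ) : ZMod p) ≠ 1 := by
      intro h
      exact h2 (Units.ext (by rw [h, Units.val_one]))
    rw [← Units.val_pow_eq_pow_val, ← pow_mul]
    exact (sq_eq_one_iff.mp h3).resolve_left h4
  obtain ⟨η, hη⟩ := hneg
  refine ⟨(g : ZMod p), g.ne_zero, ?_⟩
  intro w
  refine ⟨hnot w, ?_⟩
  intro h
  apply hnot (η * w)
  rw [mul_pow, hη, ← h]
  ring


/-- For every separable `f` of positive degree with positive leading coefficient and every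
`e ≥ 2`, the polynomial `f ^ e` admits difference-free sets of size `c * N ^ (1 - 1/k + δ)`
with `δ > 0`, `k = deg (f ^ e)`. -/
theorem power_lower_bound_abs (f : ℤ[X]) (e : ℕ) (he : 2 ≤ e) (hd : 1 ≤ f.natDegree)
    (hlc : 0 < f.leadingCoeff)
    (hsep : ∃ u v : ℤ[X], ∃ R : ℤ, R ≠ 0 ∧ u * f + v * derivative f = C R) :
    ∃ c δ : ℝ, 0 < c ∧ 0 < δ ∧ ∀ N : ℕ, 1 ≤ N →
      ∃ S : Finset ℕ, S ⊆ Finset.Icc 1 N ∧
        (∀ x ∈ S, ∀ y ∈ S, ∀ n : ℕ, 1 ≤ n → (x : ℤ) - y = (f ^ e).eval (n : ℤ) → x = y) ∧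
        c * (N : ℝ) ^ (1 - 1 / ((f ^ e).natDegree : ℝ) + δ) ≤ (S.card : ℝ) := by
  classical
  obtain ⟨u, v, R, hR0, hbez⟩ := hsep
  obtain ⟨p, hp, hpR, hpe⟩ := Nat.exists_prime_gt_modEq_one (k := 2 * e) R.natAbs (by omega)
  have hpf : Fact p.Prime := ⟨hp⟩
  have hp2 : 2 ≤ p := hp.two_le
  obtain ⟨ν, hν0, hν⟩ := exists_non_power p e he hpe
  have hcop : IsCoprime R (p : ℤ) := by
    have hnd : ¬ ((p : ℤ) ∣ R) := by
      intro hdiv
      have h1 : p ∣ R.natAbs := by
        have := Int.natAbs_dvd_natAbs.mpr hdiv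
        simpa using this
      have h2 : 0 < R.natAbs := Int.natAbs_pos.mpr hR0
      have := Nat.le_of_dvd h2 h1
      omega
    exact ((Nat.prime_iff_prime_int.mp hp).coprime_iff_not_dvd.mpr hnd).symm
  set A : Finset (ZMod p) := {0, ν} with hAdef
  have hAcard : A.card = 2 := by
    rw [hAdef, card_insert_of_notMem (by simpa using hν0.symm), card_singleton]
  have hA : ∀ a ∈ A, ∀ a' ∈ A, a ≠ a' → ∀ w : ZMod p, a - a' ≠ w ^ e := by
    intro a ha a' ha' hne w
    simp only [hAdef, mem_insert, mem_singleton] at ha ha'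
    rcases ha with rfl | rfl <;> rcases ha' with rfl | rfl
    · exact absurd rfl hne
    · rw [zero_sub]; exact (hν w).2
    · rw [sub_zero]; exact (hν w).1
    · exact absurd rfl hne
  have hAne : A.Nonempty := ⟨0, by simp [hAdef]⟩
  obtain ⟨c, hc, hmain⟩ := power_lower_bound p e f A hp.squarefree hp2 (by omega) hd hlc
    ⟨u, v, R, hcop, hbez⟩ hA hAne
  have hk : (f ^ e).natDegree = f.natDegree * e := by
    rw [natDegree_pow, mul_comm]
  have hk1 : 1 ≤ f.natDegree * e := Nat.mul_pos (by omega) (by omega)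
  have hlp : 0 < Real.log (p : ℝ) := Real.log_pos (by exact_mod_cast (by omega : 1 < p))
  refine ⟨c, Real.log 2 / (((f.natDegree * e : ℕ) : ℝ) * Real.log (p : ℝ)), hc, ?_, ?_⟩
  · apply div_pos (Real.log_pos (by norm_num))
    apply mul_pos _ hlp
    exact_mod_cast hk1
  · intro N hN
    obtain ⟨S, hS1, hS2, hS3⟩ := hmain N hN
    refine ⟨S, hS1, hS2, ?_⟩
    rw [hk]
    rw [hAcard] at hS3
    exact_mod_cast hS3

end Vale.Agent.Lib.P042
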