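import Mathlib
import Vale.Agent.Lib.P042.PowerD

namespace Vale.Agent.Lib.P042

open Finset Polynomial

/-- A polynomial over `ℤ` that is separable over `ℚ` satisfies a Bezout identity with its
derivative over `ℤ`, with a nonzero integer on the right. -/
theorem bezout_of_separable (f : ℤ[X]) (h : (f.map (Int.castRingHom ℚ)).Separable) :
    ∃ u v : ℤ[X], ∃ R : ℤ, R ≠ 0 ∧ u * f + v * derivative f = C R := by
  obtain ⟨a, b, hab⟩ := h
  obtain ⟨D1, hD1, h1⟩ := IsLocalization.integerNormalization_spec (nonZeroDivisors ℤ) a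
  obtain ⟨D2, hD2, h2⟩ := IsLocalization.integerNormalization_spec (nonZeroDivisors ℤ) b
  set a' := IsLocalization.integerNormalization (nonZeroDivisors ℤ) a with ha'
  set b' := IsLocalization.integerNormalization (nonZeroDivisors ℤ) b with hb'
  have hD1' : D1 ≠ 0 := nonZeroDivisors.ne_zero hD1
  have hD2' : D2 ≠ 0 := nonZeroDivisors.ne_zero hD2
  refine ⟨C D2 * a', C D1 * b', D1 * D2, mul_ne_zero hD1' hD2', ?_⟩
  apply Polynomial.map_injective (Int.castRingHom ℚ) Int.cast_injective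
  have e1 : a'.map (Int.castRingHom ℚ) = D1 • a := h1
  have e2 : b'.map (Int.castRingHom ℚ) = D2 • b := h2
  simp only [Polynomial.map_add, Polynomial.map_mul, Polynomial.map_C, e1, e2]
  rw [← derivative_map]
  have hab' : a * f.map (Int.castRingHom ℚ) + b * derivative (f.map (Int.castRingHom ℚ)) = 1 := hab
  have : (C ((Int.castRingHom ℚ) D2) * (D1 • a)) * f.map (Int.castRingHom ℚ)
      + (C ((Int.castRingHom ℚ) D1) * (D2 • b)) * derivative (f.map (Int.castRingHom ℚ))
      = C ((Int.castRingHom ℚ) D1) * C ((Int.castRingHom ℚ) D2)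
        * (a * f.map (Int.castRingHom ℚ) + b * derivative (f.map (Int.castRingHom ℚ))) := by
    simp only [zsmul_eq_mul, eq_intCast, map_intCast]
    ring
  rw [this, hab', mul_one, ← C_mul, ← map_mul]

/-- Version of `power_lower_bound_abs` with separability over `ℚ` as hypothesis. -/
theorem power_lower_bound_sep (f : ℤ[X]) (e : ℕ) (he : 2 ≤ e) (hd : 1 ≤ f.natDegree)
    (hlc : 0 < f.leadingCoeff) (hsep : (f.map (Int.castRingHom ℚ)).Separable) :
    ∃ c δ : ℝ, 0 < c ∧ 0 < δ ∧ ∀ N : ℕ, 1 ≤ N →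
      ∃ S : Finset ℕ, S ⊆ Finset.Icc 1 N ∧
        (∀ x ∈ S, ∀ y ∈ S, ∀ n : ℕ, 1 ≤ n → (x : ℤ) - y = (f ^ e).eval (n : ℤ) → x = y) ∧
        c * (N : ℝ) ^ (1 - 1 / ((f ^ e).natDegree : ℝ) + δ) ≤ (S.card : ℝ) :=
  power_lower_bound_abs f e he hd hlc (bezout_of_separable f hsep)

end Vale.Agent.Lib.P042
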