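import Mathlib

namespace Vale.Agent.Lib.P042

/-- A 12-element subset of `ZMod 205` no two distinct elements of which differ by a square. -/
def set205 : Finset (ZMod 205) := {0, 2, 8, 14, 77, 79, 85, 96, 103, 109, 111, 181}

theorem set205_card : set205.card = 12 := by decide

set_option maxRecDepth 100000 in
theorem set205_spec :
    ∀ a ∈ set205, ∀ a' ∈ set205, a ≠ a' → ∀ u : ZMod 205, a - a' ≠ u ^ 2 := by
  decide +kernel

theorem squarefree_205 : Squarefree (205 : ℕ) := by
  decide +kernel

end Vale.Agent.Lib.P042
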