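import Mathlib
import Vale.Agent.Lib.P042.PowerE
import Vale.Agent.Lib.P042.Set205

namespace Vale.Agent.Lib.P042

open Finset Polynomial

/-- `f = (X^3 - 19) (X^2 + X + 1)`. -/
noncomputable def f19 : ℤ[X] := (X ^ 3 - 19) * (X ^ 2 + X + 1)

theorem f19_natDegree : f19.natDegree = 5 := by
  have h1 : (X ^ 3 - 19 : ℤ[X]).natDegree = 3 := by compute_degree!
  have h2 : (X ^ 2 + X + 1 : ℤ[X]).natDegree = 2 := by compute_degree!
  have m1 : (X ^ 3 - 19 : ℤ[X]).Monic := by monicity!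
  have m2 : (X ^ 2 + X + 1 : ℤ[X]).Monic := by monicity!
  rw [f19, m1.natDegree_mul m2, h1, h2]

theorem f19_leadingCoeff : f19.leadingCoeff = 1 := by
  have m1 : (X ^ 3 - 19 : ℤ[X]).Monic := by monicity!
  have m2 : (X ^ 2 + X + 1 : ℤ[X]).Monic := by monicity!
  exact (m1.mul m2)

theorem f19_bezout :
    (100 * X ^ 3 + 30 * X ^ 2 - 75 * X - 676 : ℤ[X]) * f19
      + (-20 * X ^ 4 - 10 * X ^ 3 + 9 * X ^ 2 + 371 * X + 190 : ℤ[X]) * derivative f19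
      = C (9234 : ℤ) := by
  have hd : derivative f19 = (3 * X ^ 2) * (X ^ 2 + X + 1) + (X ^ 3 - 19) * (2 * X + 1) := by
    rw [f19, derivative_mul]
    simp only [derivative_sub, derivative_add, derivative_X_pow, derivative_X, derivative_one,
      derivative_ofNat]
    norm_num
  rw [hd, f19]
  have hC : (C (9234 : ℤ) : ℤ[X]) = 9234 := by
    simp
  rw [hC]
  ring


theorem f19_eval (n : ℤ) : (f19 ^ 2).eval n = ((n ^ 3 - 19) * (n ^ 2 + n + 1)) ^ 2 := by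
  simp [f19]

theorem f19_eval_ne (n : ℕ) (hn : 1 ≤ n) :
    (((n : ℤ) ^ 3 - 19) * ((n : ℤ) ^ 2 + (n : ℤ) + 1)) ^ 2 ≠ 0 := by
  have h2 : (0 : ℤ) < (n : ℤ) ^ 2 + (n : ℤ) + 1 := by positivity
  have h1 : (n : ℤ) ^ 3 - 19 ≠ 0 := by
    intro h
    have h3 : n ^ 3 = 19 := by
      have : (n : ℤ) ^ 3 = 19 := by linarith
      exact_mod_cast this
    rcases Nat.lt_or_ge n 3 with hlt | hge
    · interval_cases n <;> omega
    · have : 3 ^ 3 ≤ n ^ 3 := Nat.pow_le_pow_left hge 3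
      omega
  exact pow_ne_zero _ (mul_ne_zero h1 h2.ne')

/-- Lower bound for the square of the intersective polynomial `(x^3 - 19)(x^2 + x + 1)`. -/
theorem f19_lower_bound : ∃ c : ℝ, 0 < c ∧ ∀ N : ℕ, 1 ≤ N →
    ∃ S : Finset ℕ, S ⊆ Finset.Icc 1 N ∧
      (∀ x ∈ S, ∀ y ∈ S, ∀ n : ℕ, 1 ≤ n →
        (x : ℤ) - (y : ℤ) ≠ (((n : ℤ) ^ 3 - 19) * ((n : ℤ) ^ 2 + (n : ℤ) + 1)) ^ 2) ∧
      c * (N : ℝ) ^ ((9 : ℝ) / 10 + Real.log 12 / (10 * Real.log 205)) ≤ (S.card : ℝ) := by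
  have hcop : IsCoprime (9234 : ℤ) ((205 : ℕ) : ℤ) := by
    rw [Int.isCoprime_iff_gcd_eq_one]
    decide
  have hne : set205.Nonempty := by
    rw [← Finset.card_pos, set205_card]; norm_num
  obtain ⟨c, hc, hmain⟩ := power_lower_bound 205 2 f19 set205 squarefree_205 (by norm_num)
    (by norm_num) (by rw [f19_natDegree]; norm_num) (by rw [f19_leadingCoeff]; norm_num)
    ⟨_, _, 9234, hcop, f19_bezout⟩ set205_spec hne
  refine ⟨c, hc, ?_⟩
  intro N hN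
  obtain ⟨S, hS1, hS2, hS3⟩ := hmain N hN
  refine ⟨S, hS1, ?_, ?_⟩
  · intro x hx y hy n hn hxy
    have h1 : (x : ℤ) - y = (f19 ^ 2).eval (n : ℤ) := by rw [f19_eval]; exact hxy
    have h2 := hS2 x hx y hy n hn h1
    rw [h2, sub_self] at hxy
    exact f19_eval_ne n hn hxy.symm
  · have hexp : (1 - 1 / ((f19.natDegree * 2 : ℕ) : ℝ) + Real.log ((set205.card : ℕ) : ℝ) /
        (((f19.natDegree * 2 : ℕ) : ℝ) * Real.log ((205 : ℕ) : ℝ)))
        = (9 : ℝ) / 10 + Real.log 12 / (10 * Real.log 205) := by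
      rw [set205_card, f19_natDegree]; norm_num
    rw [hexp] at hS3
    exact hS3

end Vale.Agent.Lib.P042
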